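import Vale.Agent.P218UD.Unif

/-! Along a blow-up sequence the mean curvature is bounded, up to an error which is small in the
mean square. -/

open MeasureTheory Set Filter Topology Metric
open scoped ENNReal NNReal RealInnerProductSpace ContDiff

namespace Vale.Agent.P218UD

open Vale.Agent.P218UA Vale.Agent.P218UM
open Vale.Agent.P218 (WeakTendsto)
open Vale.Agent.P218.H63 (lap hessSq)

lemma ae_ar {v : E3 → ℝ} (hv : Continuous v) : ∀ᵐ x ∂(ar v), v x = 0 :=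
  ae_restrict_mem (isClosed_eq hv continuous_const).measurableSet

lemma gd_nonneg (μ : Measure E3) (x : E3) (r : ℝ) : 0 ≤ gd μ x r :=
  div_nonneg (integral_nonneg fun _ => (Real.exp_pos _).le) (by positivity)

/-- the excess of the mean curvature is controlled by the dissipation -/
lemma excess_le_dis {w : ℝ → E3 → ℝ} {t R : ℝ} (hS : IsSurf (w t)) (ht : t ∈ Icc (-2 : ℝ) (-1)) :
    ∫⁻ x in ball 0 R, ENNReal.ofReal (max (|lap (w t) x| - R / 2) 0 ^ 2) ∂(ar (w t))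
      ≤ ENNReal.ofReal (8 * Real.pi * Real.exp (R ^ 2 / 4)) * dis w 0 0 t := by
  rw [dis, ← lintegral_const_mul' _ _ ENNReal.ofReal_ne_top]
  refine le_trans (lintegral_mono_ae ?_) (setLIntegral_le_lintegral (ball 0 R) _)
  filter_upwards [ae_restrict_of_ae (ae_ar hS.smooth.continuous),
    ae_restrict_mem measurableSet_ball] with x hx hxR
  rw [← ENNReal.ofReal_mul (by positivity)]
  refine ENNReal.ofReal_le_ofReal ?_
  rw [mem_ball_zero_iff] at hxR
  have hn : ‖gradient (w t) x‖ = 1 := (hS.eik x hx).self_of_nhds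
  simp only [sub_zero, zero_sub]
  set τ := -t with hτ
  have h1 : 1 ≤ τ := by linarith [ht.2]
  have h2 : τ ≤ 2 := by linarith [ht.1]
  set D := lap (w t) x - ⟪x, gradient (w t) x⟫ / (2 * τ)
  have h3 : |⟪x, gradient (w t) x⟫ / (2 * τ)| ≤ R / 2 := by
    have h4 := abs_real_inner_le_norm x (gradient (w t) x)
    rw [hn, mul_one] at h4
    rw [abs_div, abs_of_pos (by positivity : 0 < 2 * τ), div_le_iff₀ (by positivity)]
    nlinarith [norm_nonneg x]
  have h4 : max (|lap (w t) x| - R / 2) 0 ≤ |D| := by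
    refine max_le ?_ (abs_nonneg _)
    have := abs_sub_abs_le_abs_sub (lap (w t) x) (⟪x, gradient (w t) x⟫ / (2 * τ))
    linarith
  have h5 : max (|lap (w t) x| - R / 2) 0 ^ 2 ≤ D ^ 2 := by
    rw [← sq_abs D]
    exact pow_le_pow_left₀ (le_max_right _ _) h4 2
  have h6 : 1 ≤ Real.exp (R ^ 2 / 4) * Real.exp (-‖x‖ ^ 2 / (4 * τ)) := by
    rw [← Real.exp_add]
    refine Real.one_le_exp ?_
    have h7 : ‖x‖ ^ 2 ≤ R ^ 2 := pow_le_pow_left₀ (norm_nonneg _) hxR.le 2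
    have h8 : ‖x‖ ^ 2 / (4 * τ) ≤ R ^ 2 / 4 := by
      rw [div_le_div_iff₀ (by positivity) (by norm_num)]
      nlinarith [sq_nonneg R]
    rw [neg_div]
    linarith
  have e : 8 * Real.pi * Real.exp (R ^ 2 / 4) * (D ^ 2 * Real.exp (-‖x‖ ^ 2 / (4 * τ))
      / (4 * Real.pi * τ)) = D ^ 2 * ((2 / τ) *
        (Real.exp (R ^ 2 / 4) * Real.exp (-‖x‖ ^ 2 / (4 * τ)))) := by
    field_simp
    ring
  have h7 : 1 ≤ 2 / τ := (one_le_div (by positivity)).2 h2
  rw [e]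
  exact h5.trans (le_mul_of_one_le_right (sq_nonneg D) (one_le_mul_of_one_le_of_one_le h7 h6))

variable {w : ℝ → E3 → ℝ} {a A C : ℝ} {s : ℕ → ℝ} {ν : Measure E3}

lemma ev_gd (hT : Tan) (ha : a < 0) (hw : IsGood w (Ioo a 0) A C) (h : TanSeq w s ν) {t : ℝ}
    (ht : t < 0) {ε : ℝ} (hε : 0 < ε) :
    ∀ᶠ i in atTop, |gd (ar (resc w (s i) t)) 0 √(0 - t) - gd ν 0 1| ≤ ε := by
  have hc0 : 0 < √(-t) := Real.sqrt_pos.2 (by linarith)
  have hν := hT.ratio w a A ha hw.toIsARFlow _ _ h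
  filter_upwards [hT.gd_lim _ _ A (ev_AR hT ha hw h ht tendsto_const_nhds) (AR_scal hc0 hν)
    (hT.slow w a A ha hw.toIsARFlow _ _ h (fun _ => t) t ht tendsto_const_nhds) 0 √(-t) √(-t) ε
    hc0 hε] with i hi
  have h1 := (hi 0 (by simp) _ ⟨le_rfl, le_rfl⟩).1
  rwa [gd_scal hc0, ← zero_sub t] at h1

theorem ev_dis (hM : Mono) (hT : Tan) (ha : a < 0) (hw : IsGood w (Ioo a 0) A C)
    (h : TanSeq w s ν) {t₁ t₂ : ℝ} (h12 : t₁ ≤ t₂) (ht₂ : t₂ < 0) {ε : ℝ} (hε : 0 < ε) :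
    ∀ᶠ i in atTop, ∫⁻ t in Ioo t₁ t₂, dis (resc w (s i)) 0 0 t ≤ ENNReal.ofReal ε := by
  filter_upwards [ev_gd hT ha hw h ht₂ (half_pos hε), ev_gd hT ha hw h (h12.trans_lt ht₂)
    (half_pos hε), ev_left ha h t₁] with i h2 h1 h3
  have hg := hT.resc_good w a A C hw _ (h.pos i)
  have h4 := hM.mono _ _ A hg.toIsARFlow 0 0 t₁ t₂ ⟨h3, h12.trans_lt ht₂⟩
    ⟨h3.trans_le h12, ht₂⟩ h12 ht₂
  have h5 : ENNReal.ofReal (gd (ar (resc w (s i) t₁)) 0 √(0 - t₁))
      ≤ ENNReal.ofReal (gd (ar (resc w (s i) t₂)) 0 √(0 - t₂)) + ENNReal.ofReal ε := by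
    rw [← ENNReal.ofReal_add (gd_nonneg _ _ _) hε.le]
    exact ENNReal.ofReal_le_ofReal (by linarith [(abs_le.1 h1).2, (abs_le.1 h2).1])
  exact (ENNReal.add_le_add_iff_left ENNReal.ofReal_ne_top).1 (h4.trans h5)

/-- the hypothesis of `Cell.small` holds along a blow-up sequence -/
theorem ev_excess (hC : Calc) (hM : Mono) (hT : Tan) (ha : a < 0) (hw : IsGood w (Ioo a 0) A C)
    (h : TanSeq w s ν) (R : ℝ) {ε : ℝ} (hε : 0 < ε) : ∀ᶠ i in atTop,
      ∫⁻ t in Icc (-2 : ℝ) (-1), ∫⁻ x in ball 0 R,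
        ENNReal.ofReal (max (|lap (resc w (s i) t) x| - R / 2) 0 ^ 2) ∂(ar (resc w (s i) t))
        ≤ ENNReal.ofReal ε := by
  set κ := 8 * Real.pi * Real.exp (R ^ 2 / 4) with hκ
  have hκ0 : 0 < κ := by positivity
  filter_upwards [ev_dis hM hT ha hw h (t₁ := -3) (t₂ := -1 / 2) (by norm_num) (by norm_num)
    (div_pos hε hκ0), ev_left ha h (-2)] with i hi h3
  have hg := hT.resc_good w a A C hw _ (h.pos i)
  calc _ ≤ ∫⁻ t in Icc (-2 : ℝ) (-1), ENNReal.ofReal κ * dis (resc w (s i)) 0 0 t :=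
        setLIntegral_mono' measurableSet_Icc fun t ht => excess_le_dis
          (hC.slice _ _ hg.toIsFlow t ⟨h3.trans_le ht.1, by linarith [ht.2]⟩) ht
    _ ≤ ENNReal.ofReal κ * ∫⁻ t in Ioo (-3 : ℝ) (-1 / 2), dis (resc w (s i)) 0 0 t := by
        rw [lintegral_const_mul' _ _ ENNReal.ofReal_ne_top]
        exact mul_le_mul_right (lintegral_mono_set
          (Icc_subset_Ioo (by norm_num) (by norm_num))) _
    _ ≤ ENNReal.ofReal κ * ENNReal.ofReal (ε / κ) := mul_le_mul_right hi _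
    _ = _ := by rw [← ENNReal.ofReal_mul hκ0.le, mul_div_cancel₀ _ hκ0.ne']

end Vale.Agent.P218UD
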