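import Vale.Agent.P218UA.Props2

/-! The statement about the weight, with real levels. -/

open MeasureTheory Set Filter Topology Metric
open scoped ENNReal NNReal RealInnerProductSpace ContDiff

namespace Vale.Agent.P218UD

open Vale.Agent.P218UA

/-- the last conclusion of `WeightStmt`, for all real levels `y` -/
def WtAt (c Λ C : ℝ) (e : E3 → ℝ) : Prop :=
  ∀ (F : Finset (ℤ × (Fin 3 → ℤ))) (b : ℤ × (Fin 3 → ℤ) → ℝ → ℝ) (J : Set ℝ), IsOpen J →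
    (∀ Q ∈ F, ContDiffOn ℝ 2 (b Q) J) → (∀ Q ∈ F, ∀ t ∈ J, 0 ≤ b Q t ∧ b Q t ≤ 1) →
    ∃ γ : ℝ → E3 → ℝ → ℝ,
      ContDiffOn ℝ 2 (fun p : ℝ × E3 × ℝ => γ p.1 p.2.1 p.2.2) (J ×ˢ univ) ∧
      ∀ t ∈ J, ∀ x : E3, (∀ y, 0 ≤ γ t x y ∧ γ t x y ≤ 1) ∧
        (∀ y : ℝ, ∀ Q ∈ F, b Q t = 1 → ‖x - zQ Q‖ < rQ Q → y + 1 < Q.1 → Q.1 < y + 3 →
          γ t x y = 0) ∧
        (∀ y : ℝ, (∀ Q ∈ F, Q.1 < y + 4 → b Q t = 0 ∨ Λ * rQ Q ≤ ‖x - zQ Q‖) → γ t x y = 1) ∧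
        ∀ a : ℝ, ∀ G : Finset (ℤ × (Fin 3 → ℤ)), G ⊆ F →
          (∀ Q ∈ F, Q.1 < a + 4 → b Q t ≠ 0 → ‖x - zQ Q‖ < Λ * rQ Q → Q ∈ G) →
          (∀ y, y ≤ a → ‖gradient (fun x => γ t x y) x‖ ^ 2
              ≤ γ t x y * ∑ Q ∈ G, e ((rQ Q)⁻¹ • (x - zQ Q)) / rQ Q ^ 2 ∧
            deriv (γ t x) y - c * γ t x y
              ≤ Real.exp (2 * y) * ∑ Q ∈ G, e ((rQ Q)⁻¹ • (x - zQ Q)) / rQ Q ^ 2) ∧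
          (∀ n : E3, ‖n‖ = 1 → ∫⁻ y in Iic a, ENNReal.ofReal
              (deriv (fun s => γ s x y) t - trT n (hs (fun x => γ t x y) x))
            ≤ ENNReal.ofReal (∑ Q ∈ G,
              (e ((rQ Q)⁻¹ • (x - zQ Q)) / rQ Q ^ 2 + C * |deriv (b Q) t|))) ∧
          ∫⁻ y in Iic a, ‖gradient (fun x => γ t x y) x‖ₑ
            ≤ ENNReal.ofReal (∑ Q ∈ G, C / rQ Q)

/-- [WT] the weight which vanishes near the loud lattice points (real levels) -/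
def WeightStmtR : Prop :=
  ∀ c ε : ℝ, 0 < c → 0 < ε → ∃ (Λ C : ℝ) (e : E3 → ℝ), 1 ≤ Λ ∧ 0 ≤ C ∧ Measurable e ∧
    (∀ x, 0 ≤ e x ∧ e x ≤ C) ∧ (∀ x, Λ ≤ ‖x‖ → e x = 0) ∧
    (∀ (μ : Measure E3) (A : ℝ), 0 ≤ A → AR μ A → ∀ (z : E3) (r : ℝ), 0 < r →
      ∫⁻ x, ENNReal.ofReal (e (r⁻¹ • (x - z)) / r ^ 2) ∂μ ≤ ENNReal.ofReal (ε * A)) ∧
    WtAt c Λ C e

end Vale.Agent.P218UD
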