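import Vale.Agent.P218UM.RegMass

/-! The lattice of balls, the cut-off functions `bQ` of the loud balls, and quiet points. -/

open MeasureTheory Set Filter Topology Metric
open scoped ENNReal NNReal RealInnerProductSpace ContDiff

namespace Vale.Agent.P218UD

open Vale.Agent.P218UA

/-- the index set of the lattice balls -/
abbrev Lat := ℤ × (Fin 3 → ℤ)

lemma rQ_pos (Q : Lat) : 0 < rQ Q := Real.exp_pos _

lemma zQ_apply (Q : Lat) (k : Fin 3) : zQ Q k = rQ Q * Q.2 k := by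
  fin_cases k <;> simp [zQ]

/-- there are finitely many lattice balls with bounded centre and scale in a bounded range -/
theorem finite_lat (y₀ y₁ : ℝ) (p : E3) (R : ℝ) :
    {Q : Lat | y₀ ≤ Q.1 ∧ (Q.1 : ℝ) ≤ y₁ ∧ zQ Q ∈ ball p R}.Finite := by
  classical
  obtain ⟨M, hM⟩ := exists_nat_ge ((‖p‖ + R) / Real.exp y₀)
  refine (Set.finite_Icc ((⌈y₀⌉, fun _ => -(M : ℤ)) : Lat) (⌊y₁⌋, fun _ => (M : ℤ))).subset ?_
  rintro Q ⟨h0, h1, h2⟩
  have h3 : ‖zQ Q‖ ≤ ‖p‖ + R := by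
    have := norm_add_le p (zQ Q - p)
    rw [add_sub_cancel] at this
    rw [mem_ball_iff_norm] at h2
    linarith
  have h4 : ∀ k, |(Q.2 k : ℝ)| ≤ M := fun k => by
    have h5 : |zQ Q k| ≤ ‖zQ Q‖ := PiLp.norm_apply_le (zQ Q) k
    rw [zQ_apply, abs_mul, abs_of_pos (rQ_pos Q)] at h5
    have h6 : Real.exp y₀ ≤ rQ Q := Real.exp_le_exp.2 h0
    refine le_trans ?_ hM
    rw [le_div_iff₀ (Real.exp_pos _)]
    nlinarith [abs_nonneg (Q.2 k : ℝ)]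
  refine ⟨⟨Int.ceil_le.2 h0, fun k => ?_⟩, Int.le_floor.2 h1, fun k => ?_⟩
  · have := (abs_le.1 (h4 k)).1
    exact_mod_cast this
  · have := (abs_le.1 (h4 k)).2
    exact_mod_cast this

/-- every point is in a lattice ball of every level -/
theorem exists_lat (x : E3) (y : ℝ) :
    ∃ Q : Lat, ‖x - zQ Q‖ < rQ Q ∧ y + 1 < Q.1 ∧ (Q.1 : ℝ) ≤ y + 2 := by
  set j : ℤ := ⌊y⌋ + 2
  set r : ℝ := Real.exp j
  have hr : 0 < r := Real.exp_pos _
  refine ⟨(j, fun k => round (x k / r)), ?_, ?_, ?_⟩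
  · set Q : Lat := (j, fun k => round (x k / r))
    have h1 : ∀ k, |(x - zQ Q) k| ≤ r / 2 := fun k => by
      have h2 := abs_sub_round (x k / r)
      have e : (x - zQ Q) k = r * (x k / r - round (x k / r)) := by
        rw [PiLp.sub_apply, zQ_apply]
        change x k - r * ((round (x k / r) : ℤ) : ℝ) = _
        field_simp
      rw [e, abs_mul, abs_of_pos hr]
      nlinarith
    have h2 : ‖x - zQ Q‖ ^ 2 < r ^ 2 := by
      rw [EuclideanSpace.norm_sq_eq, Fin.sum_univ_three]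
      have a0 := pow_le_pow_left₀ (abs_nonneg _) (h1 0) 2
      have a1 := pow_le_pow_left₀ (abs_nonneg _) (h1 1) 2
      have a2 := pow_le_pow_left₀ (abs_nonneg _) (h1 2) 2
      simp only [Real.norm_eq_abs]
      nlinarith
    exact lt_of_pow_lt_pow_left₀ 2 hr.le h2
  · have := Int.lt_floor_add_one y
    simp only [j]
    push_cast
    linarith
  · have := Int.floor_le y
    simp only [j]
    push_cast
    linarith

/-- a smooth step, `0` below `1/2` and `1` above `9/10` -/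
noncomputable def Xi (s : ℝ) : ℝ := Real.smoothTransition ((s - 1 / 2) * (5 / 2))

lemma contDiff_Xi {n : ℕ∞} : ContDiff ℝ n Xi :=
  Real.smoothTransition.contDiff.comp ((contDiff_id.sub contDiff_const).mul contDiff_const)

lemma Xi_zero {s : ℝ} (h : s ≤ 1 / 2) : Xi s = 0 :=
  Real.smoothTransition.zero_of_nonpos (by nlinarith)

lemma Xi_one {s : ℝ} (h : 9 / 10 ≤ s) : Xi s = 1 :=
  Real.smoothTransition.one_of_one_le (by nlinarith)

/-- a function which is constant near `-∞` and near `+∞` has a bounded derivative -/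
lemma exists_deriv_bound {f : ℝ → ℝ} (hf : ContDiff ℝ 1 f) {a b c d : ℝ}
    (ha : ∀ s, s ≤ a → f s = c) (hb : ∀ s, b ≤ s → f s = d) :
    ∃ C : ℝ, 0 < C ∧ ∀ s, |deriv f s| ≤ C := by
  obtain ⟨C, hC⟩ := isCompact_Icc.exists_bound_of_continuousOn
    (s := Icc a b) (hf.continuous_deriv le_rfl).continuousOn
  refine ⟨|C| + 1, by positivity, fun s => ?_⟩
  by_cases h : s ∈ Icc a b
  · exact (hC s h).trans (by linarith [le_abs_self C])
  · rw [mem_Icc, not_and_or, not_le, not_le] at h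
    have h0 : deriv f s = 0 := by
      rcases h with h | h
      · have : f =ᶠ[𝓝 s] fun _ => c := by
          filter_upwards [gt_mem_nhds h] with t ht using ha t ht.le
        rw [this.deriv_eq, deriv_const]
      · have : f =ᶠ[𝓝 s] fun _ => d := by
          filter_upwards [lt_mem_nhds h] with t ht using hb t ht.le
        rw [this.deriv_eq, deriv_const]
    rw [h0, abs_zero]
    positivity

lemma exists_Xi_bound : ∃ C : ℝ, 0 < C ∧ ∀ s, |deriv Xi s| ≤ C :=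
  exists_deriv_bound (contDiff_Xi (n := 1)) (fun _ => Xi_zero) fun _ => Xi_one

/-- a bound for the derivative of `Xi` -/
noncomputable def CXi : ℝ := exists_Xi_bound.choose

lemma CXi_pos : 0 < CXi := exists_Xi_bound.choose_spec.1

lemma abs_deriv_Xi (s : ℝ) : |deriv Xi s| ≤ CXi := exists_Xi_bound.choose_spec.2 s

/-- the cut-off function of the lattice ball `Q`: `0` when it is quiet, `1` when it is loud -/
noncomputable def bQ (w : ℝ → E3 → ℝ) (δ : ℝ) (Q : Lat) (t : ℝ) : ℝ :=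
  Xi (bbar w (zQ Q) (rQ Q) t / δ)

variable {w : ℝ → E3 → ℝ} {δ : ℝ} {Q : Lat} {t : ℝ}

lemma bQ_mem : 0 ≤ bQ w δ Q t ∧ bQ w δ Q t ≤ 1 :=
  ⟨Real.smoothTransition.nonneg _, Real.smoothTransition.le_one _⟩

lemma bQ_eq_zero (hδ : 0 < δ) (h : bbar w (zQ Q) (rQ Q) t ≤ δ / 2) : bQ w δ Q t = 0 :=
  Xi_zero (by rw [div_le_iff₀ hδ]; linarith)

lemma le_of_bQ_ne (hδ : 0 < δ) (h : bQ w δ Q t ≠ 0) : δ / 2 ≤ bbar w (zQ Q) (rQ Q) t := by
  by_contra h'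
  exact h (bQ_eq_zero hδ (not_le.1 h').le)

lemma bQ_eq_one (hδ : 0 < δ) (h : 9 / 10 * δ ≤ bbar w (zQ Q) (rQ Q) t) : bQ w δ Q t = 1 :=
  Xi_one (by rw [le_div_iff₀ hδ]; linarith)

lemma contDiffAt_bQ (h : ContDiffAt ℝ ∞ (bbar w (zQ Q) (rQ Q)) t) :
    ContDiffAt ℝ 2 (bQ w δ Q) t :=
  (contDiff_Xi (n := 2)).contDiffAt.comp t ((h.of_le (by norm_cast)).div_const δ)

lemma abs_deriv_bQ (hδ : 0 < δ) (h : ContDiffAt ℝ ∞ (bbar w (zQ Q) (rQ Q)) t) :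
    |deriv (bQ w δ Q) t| ≤ CXi / δ * |deriv (bbar w (zQ Q) (rQ Q)) t| := by
  have h1 := (h.differentiableAt (by simp)).hasDerivAt.div_const δ
  have h2 := ((contDiff_Xi (n := 1)).differentiable one_ne_zero
    (bbar w (zQ Q) (rQ Q) t / δ)).hasDerivAt.comp t h1
  have h3 : deriv (bQ w δ Q) t = _ := h2.deriv
  rw [h3, abs_mul, abs_div, abs_of_pos hδ]
  calc _ ≤ CXi * (|deriv (bbar w (zQ Q) (rQ Q)) t| / δ) :=
        mul_le_mul_of_nonneg_right (abs_deriv_Xi _) (by positivity)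
    _ = _ := by ring

/-- the times in `J` at which the lattice ball `Q` is loud -/
def loud (w : ℝ → E3 → ℝ) (δ : ℝ) (J : Set ℝ) (Q : Lat) : Set ℝ :=
  {t ∈ J | δ ≤ bbar w (zQ Q) (rQ Q) t}

lemma measurableSet_loud {J : Set ℝ} (hJ : IsOpen J)
    (h : ∀ t ∈ J, ContDiffAt ℝ ∞ (bbar w (zQ Q) (rQ Q)) t) : MeasurableSet (loud w δ J Q) := by
  have h1 : IsOpen (J ∩ bbar w (zQ Q) (rQ Q) ⁻¹' Iio δ) :=
    ContinuousOn.isOpen_inter_preimage (fun t ht => (h t ht).continuousAt.continuousWithinAt) hJ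
      isOpen_Iio
  have e : loud w δ J Q = J \ (J ∩ bbar w (zQ Q) (rQ Q) ⁻¹' Iio δ) := by
    ext t
    simp only [loud, mem_ofPred_eq, Set.mem_sdiff, mem_inter_iff, mem_preimage, mem_Iio, not_and,
      not_lt]
    exact ⟨fun h => ⟨h.1, fun _ => h.2⟩, fun h => ⟨h.1, h.2 h.1⟩⟩
  rw [e]
  exact hJ.measurableSet.diff h1.measurableSet

/-- the weight can only be nonzero near quiet points -/
theorem quiet_of_closure (hδ : 0 < δ) {I J : Set ℝ} {F : Finset Lat} {γ₀ γ : ℝ → E3 → ℝ → ℝ}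
    (h0 : ∀ t ∈ J, ∀ (x : E3) (y : ℝ), ∀ Q ∈ F, bQ w δ Q t = 1 → ‖x - zQ Q‖ < rQ Q → y + 1 < Q.1 →
      Q.1 < y + 3 → γ₀ t x y = 0)
    (h1 : ∀ t ∈ J, ∀ x y, γ₀ t x y = 0 → γ t x y = 0) {x : E3} {y : ℝ}
    (hF : ∀ Q : Lat, ‖x - zQ Q‖ < rQ Q → y + 1 < Q.1 → (Q.1 : ℝ) ≤ y + 2 → Q ∈ F ∧
      Icc (t - rQ Q ^ 2) t ⊆ I ∧ ContinuousAt (bbar w (zQ Q) (rQ Q)) t)
    (h : (t, x, y) ∈ closure {p' : ℝ × E3 × ℝ | p'.1 ∈ J ∧ γ p'.1 p'.2.1 p'.2.2 ≠ 0}) :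
    Quiet w I δ t x y := by
  obtain ⟨Q, hQ1, hQ2, hQ3⟩ := exists_lat x y
  obtain ⟨hQF, hI, hc⟩ := hF Q hQ1 hQ2 hQ3
  refine ⟨zQ Q, rQ Q, by rwa [norm_sub_rev], Real.exp_lt_exp.2 hQ2,
    Real.exp_lt_exp.2 (by linarith), hI, ?_⟩
  by_contra hb
  rw [not_lt] at hb
  have e1 : ∀ᶠ p : ℝ × E3 × ℝ in 𝓝 (t, x, y), 9 / 10 * δ < bbar w (zQ Q) (rQ Q) p.1 :=
    (hc.comp_of_eq (f := fun p : ℝ × E3 × ℝ => p.1) continuousAt_fst rfl).eventually
      (lt_mem_nhds (by linarith : 9 / 10 * δ < bbar w (zQ Q) (rQ Q) t))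
  have e2 : ∀ᶠ p : ℝ × E3 × ℝ in 𝓝 (t, x, y), ‖p.2.1 - zQ Q‖ < rQ Q :=
    (by fun_prop : ContinuousAt (fun p : ℝ × E3 × ℝ => ‖p.2.1 - zQ Q‖) (t, x, y)).eventually
      (gt_mem_nhds hQ1)
  have e3 : ∀ᶠ p : ℝ × E3 × ℝ in 𝓝 (t, x, y), p.2.2 + 1 < Q.1 :=
    (by fun_prop : ContinuousAt (fun p : ℝ × E3 × ℝ => p.2.2 + 1) (t, x, y)).eventually
      (gt_mem_nhds hQ2)
  have e4 : ∀ᶠ p : ℝ × E3 × ℝ in 𝓝 (t, x, y), (Q.1 : ℝ) < p.2.2 + 3 :=
    (by fun_prop : ContinuousAt (fun p : ℝ × E3 × ℝ => p.2.2 + 3) (t, x, y)).eventually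
      (lt_mem_nhds (by linarith : (Q.1 : ℝ) < y + 3))
  obtain ⟨p, hp, hp1, hp2, hp3, hp4⟩ :=
    ((mem_closure_iff_frequently.1 h).and_eventually (e1.and (e2.and (e3.and e4)))).exists
  exact hp.2 (h1 _ hp.1 _ _ (h0 _ hp.1 _ _ Q hQF (bQ_eq_one hδ hp1.le) hp2 hp3 hp4))

end Vale.Agent.P218UD
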