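import Vale.Agent.P218UM.RegMass

/-! Elementary integral inequalities. -/

open MeasureTheory Set Filter Topology Metric
open scoped ENNReal NNReal RealInnerProductSpace ContDiff

namespace Vale.Agent.P218UD

open Vale.Agent.P218UA

/-- gain is at most loss; no measurability of `g` and `l` is needed -/
theorem lint_le_of_int {α : Type*} [MeasurableSpace α] {μ : Measure α} {f g l : α → ℝ}
    (hf : Integrable f μ) (h0 : 0 ≤ ∫ p, f p ∂μ)
    (h : ∀ᵐ p ∂μ, 0 ≤ g p ∧ 0 ≤ l p ∧ f p + g p ≤ l p) :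
    ∫⁻ p, ENNReal.ofReal (g p) ∂μ ≤ ∫⁻ p, ENNReal.ofReal (l p) ∂μ := by
  have hm := hf.aemeasurable
  have h1 : ∫⁻ p, ENNReal.ofReal (f p) ∂μ ≠ ⊤ := hf.lintegral_lt_top.ne
  have h2 : ∫⁻ p, ENNReal.ofReal (-f p) ∂μ ≠ ⊤ := hf.neg.lintegral_lt_top.ne
  have h3 : ∫⁻ p, ENNReal.ofReal (-f p) ∂μ ≤ ∫⁻ p, ENNReal.ofReal (f p) ∂μ := by
    rw [integral_eq_lintegral_pos_part_sub_lintegral_neg_part hf, sub_nonneg] at h0
    exact (ENNReal.toReal_le_toReal h2 h1).1 h0
  have h4 : ∫⁻ p, (ENNReal.ofReal (g p) + ENNReal.ofReal (f p)) ∂μ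
      ≤ ∫⁻ p, (ENNReal.ofReal (l p) + ENNReal.ofReal (-f p)) ∂μ := by
    refine lintegral_mono_ae (h.mono fun p ⟨hg, hl, hp⟩ => ?_)
    rcases le_total 0 (f p) with hf0 | hf0
    · rw [← ENNReal.ofReal_add hg hf0]
      exact (ENNReal.ofReal_le_ofReal (by linarith)).trans le_self_add
    · rw [ENNReal.ofReal_of_nonpos hf0, add_zero, ← ENNReal.ofReal_add hl (by linarith)]
      exact ENNReal.ofReal_le_ofReal (by linarith)
  have hm' : AEMeasurable (fun p => ENNReal.ofReal (-f p)) μ := hm.neg.ennreal_ofReal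
  rw [lintegral_add_right' _ hm.ennreal_ofReal, lintegral_add_right' _ hm'] at h4
  exact (ENNReal.add_le_add_iff_right h1).1 (h4.trans (add_le_add le_rfl h3))

/-- an upper bound for a Bochner integral; no integrability is needed -/
theorem int_le_of_lint {α : Type*} [MeasurableSpace α] {μ : Measure α} {f : α → ℝ} {b : ℝ}
    (hb : 0 ≤ b) (h : ∫⁻ p, ENNReal.ofReal (f p) ∂μ ≤ ENNReal.ofReal b) : ∫ p, f p ∂μ ≤ b := by
  by_cases hf : Integrable f μ
  · rw [integral_eq_lintegral_pos_part_sub_lintegral_neg_part hf]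
    have h1 := ENNReal.toReal_le_of_le_ofReal hb h
    linarith [ENNReal.toReal_nonneg (a := ∫⁻ p, ENNReal.ofReal (-f p) ∂μ)]
  · rwa [integral_undef hf]

/-- the integral of `1 / |y - x|` over a ball -/
theorem lint_inv_dist {μ : Measure E3} {A : ℝ} (hμ : AR μ A) (hA : 0 ≤ A) {x : E3} {r M : ℝ}
    (hr : 0 < r) (hM : 0 < M) {h : E3 → ℝ} (h1 : ∀ y, h y * ‖y - x‖ ≤ M)
    (h2 : ∀ y, r < ‖y - x‖ → h y ≤ 0) :
    ∫⁻ y, ENNReal.ofReal (h y) ∂μ ≤ ENNReal.ofReal (4 * M * A * r) := by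
  have hp : ∀ y, ENNReal.ofReal (h y) ≤ ∑' k : ℕ, (closedBall x (r * (1 / 2) ^ k)).indicator
      (fun _ => ENNReal.ofReal (2 * M / (r * (1 / 2) ^ k))) y := fun y => by
    by_cases hy : r < ‖y - x‖
    · rw [ENNReal.ofReal_of_nonpos (h2 y hy)]
      exact zero_le
    rw [not_lt] at hy
    have key : ∃ k : ℕ, ‖y - x‖ ≤ r * (1 / 2) ^ k ∧ h y ≤ 2 * M / (r * (1 / 2) ^ k) := by
      rcases (norm_nonneg (y - x)).eq_or_lt with h0 | h0
      · obtain ⟨k, hk⟩ := exists_pow_lt_of_lt_one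
          (by positivity : 0 < 2 * M / (r * (|h y| + 1))) (by norm_num : (1 / 2 : ℝ) < 1)
        refine ⟨k, by rw [← h0]; positivity, ?_⟩
        rw [lt_div_iff₀ (by positivity)] at hk
        rw [le_div_iff₀ (by positivity)]
        have h3 : 0 < r * (1 / 2 : ℝ) ^ k := by positivity
        nlinarith [le_abs_self (h y)]
      · obtain ⟨k, hk1, hk2⟩ := exists_nat_pow_near_of_lt_one (x := ‖y - x‖ / r) (y := 1 / 2)
          (by positivity) ((div_le_one hr).2 hy) (by norm_num) (by norm_num)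
        rw [div_le_iff₀ hr] at hk2
        rw [lt_div_iff₀ hr, pow_succ] at hk1
        refine ⟨k, by linarith, ?_⟩
        rw [le_div_iff₀ (by positivity)]
        rcases le_total (h y) 0 with h3 | h3
        · have h4 : 0 < r * (1 / 2 : ℝ) ^ k := by positivity
          nlinarith
        · nlinarith [h1 y]
    obtain ⟨k, hk1, hk2⟩ := key
    refine le_trans ?_ (ENNReal.le_tsum k)
    rw [indicator_of_mem (mem_closedBall_iff_norm.2 hk1)]
    exact ENNReal.ofReal_le_ofReal hk2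
  refine (lintegral_mono hp).trans ?_
  rw [lintegral_tsum fun k => (measurable_const.indicator measurableSet_closedBall).aemeasurable]
  have h3 : ∀ k : ℕ, ∫⁻ y, (closedBall x (r * (1 / 2) ^ k)).indicator
      (fun _ => ENNReal.ofReal (2 * M / (r * (1 / 2) ^ k))) y ∂μ
      ≤ ENNReal.ofReal (2 * M * A * r * (1 / 2) ^ k) := fun k => by
    rw [lintegral_indicator_const measurableSet_closedBall]
    have h4 : 0 < r * (1 / 2 : ℝ) ^ k := by positivity
    refine (mul_le_mul_right (hμ x _ h4) _).trans (le_of_eq ?_)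
    rw [← ENNReal.ofReal_mul (by positivity)]
    congr 1
    field_simp
  refine (ENNReal.tsum_le_tsum h3).trans (le_of_eq ?_)
  rw [← ENNReal.ofReal_tsum_of_nonneg (fun k => by positivity)
    (summable_geometric_two.mul_left _), tsum_mul_left, tsum_geometric_two]
  congr 1
  ring

end Vale.Agent.P218UD
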