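import Vale.Agent.P218UD.Rad

/-! The test function of the strong maximum principle. -/

open MeasureTheory Set Filter Topology Metric
open scoped ENNReal NNReal RealInnerProductSpace ContDiff

namespace Vale.Agent.P218UD

open Vale.Agent.P218UA Vale.Agent.P218UM
open Vale.Agent.P218.H63 (lap hessSq)

/-- the self-similar track of the point `z` -/
noncomputable def ctr (z : E3) (t : ℝ) : E3 := √(-t) • z

lemma continuous_ctr (z : E3) : Continuous (ctr z) := by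
  unfold ctr
  fun_prop

lemma hasDerivAt_ctr (z : E3) {t : ℝ} (ht : t < 0) :
    HasDerivAt (ctr z) ((-1 / (2 * √(-t))) • z) t :=
  ((hasDerivAt_neg' t).sqrt (by linarith)).smul_const z

lemma norm_ctr_sub (z : E3) {t : ℝ} (ht : t ≤ -1) : ‖ctr z t - z‖ ≤ (-1 - t) * ‖z‖ := by
  have h1 : 1 ≤ √(-t) := Real.one_le_sqrt.2 (by linarith)
  have h2 : √(-t) ≤ -t := Real.sqrt_le_iff.2 ⟨by linarith, by nlinarith⟩
  have e : ctr z t - z = (√(-t) - 1) • z := by rw [ctr, sub_smul, one_smul]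
  rw [e, norm_smul, Real.norm_eq_abs, abs_of_nonneg (by linarith)]
  exact mul_le_mul_of_nonneg_right (by linarith) (norm_nonneg _)

open Classical in
theorem exists_psi (z : E3) {tm τ : ℝ} (hτ : 0 < τ) (ht : tm + 2 * τ ≤ -1) :
    ∃ K : ℝ, 1 ≤ K ∧ ∀ r₀ r₁ : ℝ, 0 < r₁ → 3 * r₁ ≤ r₀ → r₀ ≤ 1 → ∃ ψ : ℝ → E3 → ℝ,
      ContDiff ℝ 2 (fun p : ℝ × E3 => ψ p.1 p.2) ∧
      tsupport (fun p : ℝ × E3 => ψ p.1 p.2) ⊆
        {p | p.1 ∈ Icc (tm - 2 * τ) (tm + 2 * τ) ∧ ‖p.2 - ctr z p.1‖ ≤ r₀} ∧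
      (∀ t x, 0 ≤ ψ t x) ∧
      (∀ t ∈ Icc (tm - τ) (tm + τ), ∀ x, ‖x - ctr z t‖ ≤ r₁ → ψ t x ≠ 0) ∧
      ∀ (w : ℝ → E3 → ℝ) (t : ℝ) (x : E3), t ≤ -1 → ‖gradient (w t) x‖ = 1 →
        adj w ψ t x ≤ K / √(‖x - ctr z t‖ ^ 2 + r₁ ^ 2) + K / r₀ ^ 2
          - if t ∈ Icc (tm - τ) (tm + τ) ∧ ‖x - ctr z t‖ ≤ r₁ then 1 / r₁ ^ 2 else 0 := by
  obtain ⟨K₀, hK₀, hK⟩ := exists_Fp_bound
  let χ : ContDiffBump tm := ⟨τ, 2 * τ, hτ, by linarith⟩
  have hχ0 : ∀ s, s ∉ Ioo (tm - 2 * τ) (tm + 2 * τ) → χ s = 0 := fun s hs => by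
    refine χ.zero_of_le_dist ?_
    rw [mem_Ioo, not_and_or, not_lt, not_lt] at hs
    rw [Real.dist_eq, le_abs]
    change 2 * τ ≤ _ ∨ 2 * τ ≤ _
    rcases hs with hs | hs
    · right; linarith
    · left; linarith
  obtain ⟨K₁, hK₁, h1⟩ := exists_deriv_bound (χ.contDiff (n := 1)) (a := tm - 2 * τ)
    (b := tm + 2 * τ) (fun s h => hχ0 s fun h' => h'.1.not_ge h)
    fun s h => hχ0 s fun h' => h'.2.not_ge h
  have hz := norm_nonneg z
  refine ⟨60 * K₀ + 3 * K₁ + K₀ * ‖z‖, by nlinarith, fun r₀ r₁ hr h3 hr1 =>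
    ⟨fun s y => χ s * fr r₀ r₁ (‖y - ctr z s‖ ^ 2), ?_, ?_, ?_, ?_, ?_⟩⟩
  · refine contDiff_iff_contDiffAt.2 fun p => ?_
    rcases lt_or_ge p.1 0 with hp | hp
    · have h2 : ContDiffAt ℝ 2 (fun q : ℝ × E3 => ctr z q.1) p :=
        (contDiffAt_fst.neg.sqrt (by linarith)).smul contDiffAt_const
      exact (χ.contDiffAt.comp p contDiffAt_fst).mul
        ((contDiffAt_fr (by positivity)).comp p ((contDiffAt_snd.sub h2).norm_sq ℝ))
    · refine (contDiffAt_const (c := 0)).congr_of_eventuallyEq ?_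
      filter_upwards [continuousAt_fst.eventually (lt_mem_nhds (show -1 < p.1 by linarith))]
        with q hq
      rw [hχ0 _ fun h => by linarith [h.2], zero_mul]
  · refine closure_minimal (fun p hp => ⟨?_, ?_⟩) ?_
    · by_contra h
      exact hp (by simp only [hχ0 _ fun h' => h (Ioo_subset_Icc_self h'), zero_mul])
    · by_contra h
      have h2 : r₀ ^ 2 ≤ ‖p.2 - ctr z p.1‖ ^ 2 :=
        pow_le_pow_left₀ (by linarith) (not_le.1 h).le 2
      exact hp (by simp only [fr_zero hr h2, mul_zero])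
    · have := continuous_ctr z
      have h2 : Continuous fun p : ℝ × E3 => ‖p.2 - ctr z p.1‖ := by fun_prop
      exact (isClosed_Icc.preimage continuous_fst).inter (isClosed_le h2 continuous_const)
  · exact fun t x => mul_nonneg χ.nonneg (Fp_nonneg _)
  · intro t ht x hx
    have h10 : χ t = 1 := χ.one_of_mem_closedBall (by
      rw [Real.closedBall_eq_Icc]
      exact ht)
    have h2 := pow_le_pow_left₀ (norm_nonneg _) hx 2
    have h4 : 0 < Lg r₀ r₁ (‖x - ctr z t‖ ^ 2) :=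
      sub_pos.2 (Real.log_lt_log (by positivity) (by nlinarith))
    simp only [h10, one_mul, fr, Fp]
    exact (mul_pos (pow_pos (Real.smoothTransition.pos_of_pos h4) 2) (by linarith)).ne'
  intro w t x ht1 hn
  set d := ‖x - ctr z t‖ with hd
  have hd0 : 0 ≤ d := norm_nonneg _
  have hm2 : 0 < d ^ 2 + r₁ ^ 2 := by positivity
  rw [adj_radial w ((χ.contDiff (n := 1)).differentiable one_ne_zero t)
    (hasDerivAt_ctr z (by linarith)) (contDiffAt_fr hm2) hn, ← hd]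
  have h4 := spatial_le hK₀ hK hr h3 (H := lap (w t) x) (inner_sq_le hn (x - ctr z t))
  rw [← hd] at h4
  set m := √(d ^ 2 + r₁ ^ 2) with hm
  have hm0 : 0 < m := Real.sqrt_pos.2 hm2
  have hmm : d ^ 2 + r₁ ^ 2 = m ^ 2 := (Real.sq_sqrt hm2.le).symm
  have hdm : d ≤ m := Real.le_sqrt_of_sq_le (by linarith [sq_nonneg r₁])
  have c0 : 0 ≤ χ t := χ.nonneg
  have c1 : χ t ≤ 1 := χ.le_one
  have f0 : 0 ≤ fr r₀ r₁ (d ^ 2) := Fp_nonneg _
  have h5 : deriv χ t * fr r₀ r₁ (d ^ 2) ≤ 3 * K₁ / m := by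
    have h6 := fr_mul_le hr h3 (sq_nonneg d)
    rw [le_div_iff₀ hm0, mul_assoc]
    calc _ ≤ K₁ * (fr r₀ r₁ (d ^ 2) * m) :=
          mul_le_mul_of_nonneg_right ((le_abs_self _).trans (h1 t)) (by positivity)
      _ ≤ K₁ * 3 := mul_le_mul_of_nonneg_left (by linarith) hK₁.le
      _ = _ := by ring
  have h6 : |2 * deriv (fr r₀ r₁) (d ^ 2) * ⟪x - ctr z t, (-1 / (2 * √(-t))) • z⟫|
      ≤ K₀ * ‖z‖ / m := by
    have h7 : 1 ≤ √(-t) := Real.one_le_sqrt.2 (by linarith)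
    have h8 : |⟪x - ctr z t, (-1 / (2 * √(-t))) • z⟫| ≤ m * (1 / 2 * ‖z‖) := by
      refine (abs_real_inner_le_norm _ _).trans (mul_le_mul hdm ?_ (norm_nonneg _) hm0.le)
      rw [norm_smul, Real.norm_eq_abs, abs_div, abs_neg, abs_one, abs_of_pos (by positivity)]
      exact mul_le_mul_of_nonneg_right
        (one_div_le_one_div_of_le (by norm_num) (by linarith)) hz
    have h9 : |deriv (fr r₀ r₁) (d ^ 2)| ≤ K₀ / m ^ 2 := by
      rw [deriv_fr hm2, abs_div, abs_neg, abs_of_pos hm2, hmm]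
      exact div_le_div_of_nonneg_right (hK _).1 (by positivity)
    rw [abs_mul, abs_mul, abs_two]
    calc _ ≤ 2 * (K₀ / m ^ 2) * (m * (1 / 2 * ‖z‖)) := by gcongr
      _ = _ := by field_simp
  have h7 : -(χ t * (2 * deriv (fr r₀ r₁) (d ^ 2) * ⟪x - ctr z t, (-1 / (2 * √(-t))) • z⟫))
      ≤ K₀ * ‖z‖ / m := by
    refine (neg_le_abs _).trans (le_trans ?_ h6)
    rw [abs_mul (χ t), abs_of_nonneg c0]
    exact mul_le_of_le_one_left (abs_nonneg _) c1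
  have h8 := mul_le_mul_of_nonneg_left h4 c0
  have h9 : χ t * (60 * K₀ / r₀ ^ 2 - if d ^ 2 ≤ r₁ ^ 2 then 1 / r₁ ^ 2 else 0)
      ≤ 60 * K₀ / r₀ ^ 2 - if t ∈ Icc (tm - τ) (tm + τ) ∧ d ≤ r₁ then 1 / r₁ ^ 2 else 0 := by
    by_cases h : t ∈ Icc (tm - τ) (tm + τ) ∧ d ≤ r₁
    · have h10 : χ t = 1 := χ.one_of_mem_closedBall (by
        rw [Real.closedBall_eq_Icc]
        exact h.1)
      rw [if_pos h, if_pos (pow_le_pow_left₀ hd0 h.2 2), h10, one_mul]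
    · have h10 : 0 ≤ (if d ^ 2 ≤ r₁ ^ 2 then 1 / r₁ ^ 2 else 0) := by
        split_ifs <;> positivity
      have h11 : 0 ≤ 60 * K₀ / r₀ ^ 2 := by positivity
      rw [if_neg h]
      nlinarith
  have h10 : 3 * K₁ / m + K₀ * ‖z‖ / m ≤ (60 * K₀ + 3 * K₁ + K₀ * ‖z‖) / m := by
    rw [← add_div]
    exact div_le_div_of_nonneg_right (by linarith) hm0.le
  have h11 : 60 * K₀ / r₀ ^ 2 ≤ (60 * K₀ + 3 * K₁ + K₀ * ‖z‖) / r₀ ^ 2 :=
    div_le_div_of_nonneg_right (by nlinarith) (sq_nonneg _)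
  linarith

end Vale.Agent.P218UD
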