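import Vale.Agent.P218UD.Unif
import Vale.Agent.P218UD.Lint
import Vale.Agent.P218UG.Frame

/-! Away from the points of higher multiplicity the rescaled flows are single sheets below a fixed
level. -/

open MeasureTheory Set Filter Topology Metric
open scoped ENNReal NNReal RealInnerProductSpace ContDiff

namespace Vale.Agent.P218UD

open Vale.Agent.P218UA Vale.Agent.P218UM Vale.Agent.P218UG
open Vale.Agent.P218 (WeakTendsto)

lemma reg_mono_angle {v : E3 → ℝ} {θ θ' : ℝ} {x : E3} {r : ℝ} (h : Reg v θ x r) (hθ : θ ≤ θ') :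
    Reg v θ' x r := by
  obtain ⟨n, hn, h⟩ := h
  exact ⟨n, hn, fun z hz z' hz' h1 h2 =>
    (h z hz z' hz' h1 h2).trans (mul_le_mul_of_nonneg_right hθ (norm_nonneg _))⟩

lemma reg_subset {v : E3 → ℝ} {θ : ℝ} {x x' : E3} {r r' : ℝ} (h : Reg v θ x r)
    (hs : ball x' r' ⊆ ball x r) : Reg v θ x' r' := by
  obtain ⟨n, hn, h⟩ := h
  exact ⟨n, hn, fun z hz z' hz' => h z (hs hz) z' (hs hz')⟩

/-- a single sheet is a Lipschitz graph -/
theorem reg_of_sheet {w : ℝ → E3 → ℝ} {T : Set ℝ} {Q : E3 ≃ₗᵢ[ℝ] E3} {p : E3} {ρ η : ℝ}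
    (h : SheetOn w T Q p (5 * ρ) ρ η) {t : ℝ} (ht : t ∈ T) : Reg (w t) η p (5 * ρ) := by
  have h1 : ∀ z ∈ ball p (5 * ρ), ‖hor Q (z - p)‖ < 5 * ρ ∧ |⟪z - p, nQ Q⟫| < 5 * ρ := by
    intro z hz
    rw [mem_ball_iff_norm] at hz
    have h2 := abs_real_inner_le_norm (z - p) (nQ Q)
    rw [norm_nQ, mul_one] at h2
    exact ⟨(norm_hor_le _).trans_lt hz, h2.trans_lt hz⟩
  refine ⟨nQ Q, norm_nQ, fun z hz z' hz' h2 h3 => ?_⟩
  rcases h with h | ⟨u, h⟩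
  · exact absurd (by rwa [pt_hor]) (h t ht _ _ (h1 z hz).1 (h1 z hz).2)
  obtain ⟨hg, hu⟩ := h t ht
  have h4 : ∀ z ∈ ball p (5 * ρ), w t z = 0 → ⟪z - p, nQ Q⟫ = u t (hor Q (z - p)) :=
    fun z hz h0 => ((hg _ (h1 z hz).1).2 _ (h1 z hz).2).1 (by rwa [pt_hor])
  have h5 := (convex_ball (0 : E2) (5 * ρ)).norm_image_sub_le_of_norm_fderiv_le (𝕜 := ℝ)
    (f := u t) (C := η) (fun ξ hξ => ((hu ξ (mem_ball_zero_iff.1 hξ)).1.comp ξ
      (contDiffAt_const.prodMk contDiffAt_id)).differentiableAt (by simp))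
    (fun ξ hξ => by simpa [gradient] using (hu ξ (mem_ball_zero_iff.1 hξ)).2.2.2.1)
    (mem_ball_zero_iff.2 (h1 z' hz').1) (mem_ball_zero_iff.2 (h1 z hz).1)
  have hη : 0 ≤ η := (norm_nonneg _).trans (hu _ (h1 z hz).1).2.2.2.1
  have e : z - z' = (z - p) - (z' - p) := by abel
  rw [← map_sub, ← e] at h5
  rw [e, inner_sub_left, h4 z hz h2, h4 z' hz' h3, ← e]
  exact h5.trans (mul_le_mul_of_nonneg_left (norm_hor_le _) hη)

lemma tbar_le {w : ℝ → E3 → ℝ} {σ t y B : ℝ} {x : E3} (hσ : 0 < σ)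
    (h : ∀ t' ∈ Icc (t - σ * Real.exp (2 * y)) t, mk (ar (w t')) x (Real.exp y) ≤ B) :
    tbar w σ t x y ≤ B := by
  have h0 : 0 < σ * Real.exp (2 * y) := by positivity
  have h1 := intervalIntegral.norm_integral_le_of_norm_le_const (C := B)
    (a := t - σ * Real.exp (2 * y)) (b := t) (f := fun t' => mk (ar (w t')) x (Real.exp y))
    fun t' ht' => by
      rw [uIoc_of_le (by linarith)] at ht'
      rw [Real.norm_eq_abs, abs_of_nonneg (mk_nonneg _ _ _)]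
      exact h t' ⟨ht'.1.le, ht'.2⟩
  rw [sub_sub_cancel, abs_of_pos h0] at h1
  rw [tbar, div_le_iff₀ h0]
  exact (le_abs_self _).trans h1

/-- below the scale at which the flow is a single sheet there are no levels of `Om` -/
theorem notMem_Om (hC : Calc) (hD : CylDensStmt) {w : ℝ → E3 → ℝ} {I : Set ℝ} {A σ θ t y r : ℝ}
    {x : E3} (hw : IsARFlow w I A) (hσ : 0 < σ) (hσ1 : σ ≤ 1) (hθ : θ ≤ 1 / 10)
    (hy : Real.exp y ≤ r) (h : ∀ t' ∈ Icc (t - r ^ 2) t, Reg (w t') θ x r) :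
    y ∉ Om w I A σ θ t x := by
  have hA := hw.one_le
  rintro (h1 | ⟨y', h1, h2, h3⟩)
  · exact h1 (Reg.mono (h t ⟨by nlinarith [sq_nonneg r], le_rfl⟩) hy)
  have h4 : tbar w σ t x y' ≤ 2 * A := tbar_le hσ fun t' ht' =>
    (mk_le (hw.ratio t' (h1 ht')) (by linarith) x (Real.exp_pos _)).trans (by linarith)
  have h5 : Real.exp y' ≤ r := (Real.exp_le_exp.2 (by linarith)).trans hy
  have h6 : σ * Real.exp (2 * y') ≤ r ^ 2 := by
    rw [two_mul, Real.exp_add]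
    have := Real.exp_pos y'
    nlinarith [mul_le_mul h5 h5 this.le (this.le.trans h5)]
  have h7 : tbar w σ t x y' ≤ 103 / 100 := tbar_le hσ fun t' ht' =>
    mk_le_of_reg hD (hC.slice w I hw.toIsFlow t' (h1 ht')).smooth.continuous hθ (Real.exp_pos _)
      (Reg.mono (h t' ⟨by linarith [ht'.1], ht'.2⟩) h5)
  linarith

/-- weak convergence and compact sets -/
theorem ev_meas_le {μ : ℕ → Measure E3} {ν : Measure E3}
    (hμ : ∀ᶠ i in atTop, IsLocallyFiniteMeasure (μ i)) (h : WeakTendsto μ ν) {S U : Set E3}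
    (hS : IsCompact S) (hU : IsOpen U) (hSU : S ⊆ U) {b : ℝ} (hb : ν U < ENNReal.ofReal b) :
    ∀ᶠ i in atTop, μ i S ≤ ENNReal.ofReal b := by
  obtain ⟨f, f1, f0, fc, fm⟩ := exists_continuous_one_zero_of_isCompact hS hU.isClosed_compl
    (disjoint_compl_right_iff_subset.2 hSU)
  have h1 : ∫ x, f x ∂ν ≤ (ν U).toReal := by
    refine int_le_of_lint ENNReal.toReal_nonneg ?_
    rw [ENNReal.ofReal_toReal hb.ne_top, ← lintegral_indicator_one hU.measurableSet]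
    refine lintegral_mono fun x => ?_
    by_cases hx : x ∈ U
    · rw [indicator_of_mem hx]
      exact ENNReal.ofReal_le_one.2 (fm x).2
    · simp [f0 hx]
  have h2 : ∫ x, f x ∂ν < b := h1.trans_lt (ENNReal.toReal_lt_of_lt_ofReal hb)
  filter_upwards [hμ, (h f f.continuous fc).eventually (gt_mem_nhds h2)] with i h3 h4
  refine le_trans ?_ (ENNReal.ofReal_le_ofReal h4.le)
  rw [ofReal_integral_eq_lintegral_ofReal (f.continuous.integrable_of_hasCompactSupport fc)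
    (Eventually.of_forall fun x => (fm x).1), ← lintegral_indicator_one hS.measurableSet]
  refine lintegral_mono fun x => ?_
  by_cases hx : x ∈ S
  · simp [indicator_of_mem hx, f1 hx]
  · simp [indicator_of_notMem hx]

variable {w : ℝ → E3 → ℝ} {a A C : ℝ} {s : ℕ → ℝ} {ν : Measure E3} {σ θ : ℝ}

/-- the sets `Om` of the rescaled flows -/
abbrev Omi (w : ℝ → E3 → ℝ) (a A σ θ s : ℝ) (p : ℝ × E3) : Set ℝ :=
  Om (resc w s) (Ioo (a / s ^ 2) 0) A σ θ p.1 p.2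

theorem ev_good_nhds (hC : Calc) (hD : CylDensStmt) (hT : Tan) (hR : RegPtStmt) (ha : a < 0)
    (hw : IsGood w (Ioo a 0) A C) (h : TanSeq w s ν) (hσ : 0 < σ) (hσ1 : σ ≤ 1) (hθ0 : 0 < θ)
    (hθ : θ ≤ 1 / 10) {p : ℝ × E3} (hp : p.1 < 0) (hZ : (√(-p.1))⁻¹ • p.2 ∉ Zset ν) :
    ∃ (y₀ : ℝ) (V : Set (ℝ × E3)), IsOpen V ∧ p ∈ V ∧
      ∀ᶠ i in atTop, ∀ q ∈ V, ∀ y ≤ y₀, y ∉ Omi w a A σ θ (s i) q := by
  obtain ⟨Q, p', ρ, hρ, -, -, h1, h2⟩ := hR w a A C ha hw s ν h p.1 hp p.2 hZ θ hθ0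
  refine ⟨Real.log (ρ / 4), ball p.1 (ρ ^ 2 / 16) ×ˢ ball p.2 ρ, isOpen_ball.prod isOpen_ball,
    ⟨mem_ball_self (by positivity), mem_ball_self hρ⟩, ?_⟩
  filter_upwards [h2] with i hi q hq y hy
  have h3 := abs_lt.1 (show |q.1 - p.1| < ρ ^ 2 / 16 from hq.1)
  have h4 : dist q.2 p' ≤ 2 * ρ := by
    have h5 := dist_triangle q.2 p.2 p'
    have h6 : dist q.2 p.2 < ρ := hq.2
    rw [dist_comm p.2, dist_eq_norm p'] at h5
    linarith
  refine notMem_Om hC hD (hT.resc_good w a A C hw _ (h.pos i)).toIsARFlow hσ hσ1 hθ (r := ρ / 4)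
    ((Real.exp_le_exp.2 hy).trans (Real.exp_log (by positivity)).le) fun t' ht' => ?_
  refine reg_subset (reg_of_sheet hi ⟨?_, ?_⟩) (ball_subset_ball' (by linarith))
  · nlinarith [ht'.1]
  · nlinarith [ht'.2]

/-- if the set of points of higher multiplicity is a null set, the rescaled flows are single
sheets below a fixed level, off a set of small measure -/
theorem ev_bad_small (hC : Calc) (hD : CylDensStmt) (hT : Tan) (hR : RegPtStmt) (ha : a < 0)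
    (hw : IsGood w (Ioo a 0) A C) (h : TanSeq w s ν) (hσ : 0 < σ) (hσ1 : σ ≤ 1) (hθ0 : 0 < θ)
    (hθ : θ ≤ 1 / 10) (hZ : ν (Zset ν) = 0) (R : ℝ) {ε : ℝ} (hε : 0 < ε) :
    ∃ (y₀ : ℝ) (B : Set (ℝ × E3)), MeasurableSet B ∧ ∀ᶠ i in atTop, ∀ t ∈ Icc (-2 : ℝ) (-1),
      (∀ x : E3, ‖x‖ ≤ R → (t, x) ∉ B → ∀ y ≤ y₀, y ∉ Omi w a A σ θ (s i) (t, x)) ∧
        ar (resc w (s i) t) {x | (t, x) ∈ B} ≤ ENNReal.ofReal ε := by
  have := h.locFin
  obtain ⟨U, hZU, hU, hUε⟩ := (Zset ν).exists_isOpen_lt_of_lt (μ := ν) (ENNReal.ofReal (ε / 2))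
    (by rw [hZ]; exact ENNReal.ofReal_pos.2 (half_pos hε))
  set π : ℝ × E3 → E3 := fun p => (√(-p.1))⁻¹ • p.2 with hπ
  have hπc : ContinuousOn π (Iio 0 ×ˢ univ) := fun p hp =>
    ((continuousAt_fst.neg.sqrt.inv₀ (Real.sqrt_pos.2 (neg_pos.2 hp.1)).ne').smul
      continuousAt_snd).continuousWithinAt
  have hO : IsOpen (Iio 0 ×ˢ univ ∩ π ⁻¹' U) :=
    hπc.isOpen_inter_preimage (isOpen_Iio.prod isOpen_univ) hU
  set K : Set (ℝ × E3) := Icc (-2 : ℝ) (-1) ×ˢ closedBall 0 R with hK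
  have hKc : IsCompact K := isCompact_Icc.prod (isCompact_closedBall 0 R)
  have hneg : ∀ p ∈ K, p.1 < 0 := fun p hp => by linarith [hp.1.2]
  obtain ⟨y₀, V, hV, hKV, hev⟩ : ∃ (y₀ : ℝ) (V : Set (ℝ × E3)), IsOpen V ∧
      K \ (Iio 0 ×ˢ univ ∩ π ⁻¹' U) ⊆ V ∧
      ∀ᶠ i in atTop, ∀ q ∈ V, ∀ y ≤ y₀, y ∉ Omi w a A σ θ (s i) q := by
    refine (hKc.diff hO).induction_on (p := fun S => ∃ (y₀ : ℝ) (V : Set (ℝ × E3)), IsOpen V ∧
      S ⊆ V ∧ ∀ᶠ i in atTop, ∀ q ∈ V, ∀ y ≤ y₀, y ∉ Omi w a A σ θ (s i) q)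
      ⟨0, ∅, isOpen_empty, Subset.rfl, by simp⟩ ?_ ?_ ?_
    · rintro S T hST ⟨y₀, V, h1, h2, h3⟩
      exact ⟨y₀, V, h1, hST.trans h2, h3⟩
    · rintro S T ⟨y₀, V, h1, h2, h3⟩ ⟨y₁, V', h4, h5, h6⟩
      refine ⟨min y₀ y₁, V ∪ V', h1.union h4, union_subset_union h2 h5, ?_⟩
      filter_upwards [h3, h6] with i h7 h8 q hq y hy
      rcases hq with hq | hq
      · exact h7 q hq y (hy.trans (min_le_left _ _))
      · exact h8 q hq y (hy.trans (min_le_right _ _))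
    · intro p hp
      obtain ⟨y₀, V, h1, h2, h3⟩ := ev_good_nhds hC hD hT hR ha hw h hσ hσ1 hθ0 hθ (hneg p hp.1)
        fun hz => hp.2 ⟨⟨hneg p hp.1, trivial⟩, hZU hz⟩
      exact ⟨V, mem_nhdsWithin_of_mem_nhds (h1.mem_nhds h2), y₀, V, h1, Subset.rfl, h3⟩
  have hBc : IsCompact (K \ V) := hKc.diff hV
  have hBO : K \ V ⊆ Iio 0 ×ˢ univ ∩ π ⁻¹' U := fun p hp => by
    by_contra h1
    exact hp.2 (hKV ⟨hp.1, h1⟩)
  obtain ⟨η, hη, hth⟩ := hBc.exists_cthickening_subset_open hO hBO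
  refine ⟨y₀, K \ V, hBc.measurableSet, ?_⟩
  have key : ∀ᶠ i in atTop, ∀ t ∈ Icc (-2 : ℝ) (-1),
      ar (resc w (s i) t) {x | (t, x) ∈ K \ V} ≤ ENNReal.ofReal ε := by
    refine ev_unif isCompact_Icc fun φ hφ t _ t' ht' htt => ?_
    have h' := tanSeq_sub h hφ
    have h0 : t' < 0 := by linarith [ht'.2]
    have hc0 : 0 < √(-t') := Real.sqrt_pos.2 (by linarith)
    have hS : IsCompact (Prod.mk t' ⁻¹' cthickening η (K \ V)) :=
      (Isometry.isClosedEmbedding (f := (Prod.mk t' : E3 → ℝ × E3))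
        (Isometry.of_dist_eq fun x y => by simp [Prod.dist_eq])).isCompact_preimage hBc.cthickening
    have hU' : IsOpen ((fun x : E3 => (√(-t'))⁻¹ • x) ⁻¹' U) := hU.preimage (by fun_prop)
    have hm : scal ν √(-t') ((fun x : E3 => (√(-t'))⁻¹ • x) ⁻¹' U) < ENNReal.ofReal ε := by
      have e : (fun x : E3 => √(-t') • x) ⁻¹' ((fun x : E3 => (√(-t'))⁻¹ • x) ⁻¹' U) = U := by
        ext x
        simp only [mem_preimage, inv_smul_smul₀ hc0.ne']
      rw [scal_apply hc0, e, Real.sq_sqrt (by linarith)]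
      calc _ ≤ ENNReal.ofReal 2 * ν U :=
            mul_le_mul_left (ENNReal.ofReal_le_ofReal (by linarith [ht'.1])) _
        _ < ENNReal.ofReal 2 * ENNReal.ofReal (ε / 2) :=
            ENNReal.mul_lt_mul_right (by simp) ENNReal.ofReal_ne_top hUε
        _ = _ := by rw [← ENNReal.ofReal_mul (by norm_num)]; congr 1; ring
    filter_upwards [ev_meas_le ((ev_AR hT ha hw h' h0 htt).mono fun i hi => hi.locFin)
      (hT.slow w a A ha hw.toIsARFlow _ _ h' t t' h0 htt) hS hU' (fun x hx => (hth hx).2) hm,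
      htt.eventually (closedBall_mem_nhds t' hη)] with i h1 h2
    refine (measure_mono fun x hx => ?_).trans h1
    refine mem_cthickening_of_dist_le _ (t i, x) _ _ hx ?_
    rw [Prod.dist_eq, dist_self, dist_comm]
    exact max_le h2 hη.le
  filter_upwards [hev, key] with i h1 h2 t ht
  refine ⟨fun x hx hB => h1 _ ?_, h2 t ht⟩
  by_contra h3
  exact hB ⟨⟨ht, mem_closedBall_zero_iff.2 hx⟩, h3⟩

end Vale.Agent.P218UD
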