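import Vale.Agent.P218UD.Loss
import Vale.Agent.P218UD.RegS

/-! The strong maximum principle for the separation functional: the contradiction for one flow. -/

open MeasureTheory Set Filter Topology Metric
open scoped ENNReal NNReal RealInnerProductSpace ContDiff

namespace Vale.Agent.P218UD

open Vale.Agent.P218UA Vale.Agent.P218UM

theorem one_flow (hC : Calc) (hcell : Cell) {w : ℝ → E3 → ℝ} {I : Set ℝ}
    {A θ σ δ c Cc Λ Cw a ρ ε K r₀ r₁ M ε₁ ε₂ ρ' : ℝ} {N : ℝ≥0} {e : E3 → ℝ} {z : E3}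
    {ψ : ℝ → E3 → ℝ} {B : Set (ℝ × E3)} (hw : IsARFlow w I A)
    (hcore : CoreAt A θ σ δ c Cc w I) (hδ : 0 < δ) (hc : 0 < c) (hc1 : c ≤ 1) (hCc : 0 ≤ Cc)
    (hθ : θ ≤ 1 / 10) (hΛ : 1 ≤ Λ) (hε : 0 ≤ ε) (he : Measurable e)
    (he0 : ∀ x, 0 ≤ e x ∧ e x ≤ Cw)
    (he1 : ∀ (μ : Measure E3) (A : ℝ), 0 ≤ A → AR μ A → ∀ (z : E3) (r : ℝ), 0 < r →
      ∫⁻ x, ENNReal.ofReal (e (r⁻¹ • (x - z)) / r ^ 2) ∂μ ≤ ENNReal.ofReal (ε * A))
    (hwt : WtAt (c / 2) Λ Cw e) (hρ : 0 < ρ) (hρ1 : ρ ≤ 1 / 2) (hρz : ρ * ‖z‖ ≤ 1 / 2)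
    (hI : Icc (-2 : ℝ) (-1) ⊆ I) (ha : Real.exp (a + 4) ≤ ρ) (har : Real.exp (a - 2) = 2 * r₁)
    (hr₀ : 0 < r₀) (hr₀ρ : r₀ ≤ ρ / 4) (hK : 1 ≤ K)
    (hψ : ContDiff ℝ 2 fun p : ℝ × E3 => ψ p.1 p.2)
    (hψs : tsupport (fun p : ℝ × E3 => ψ p.1 p.2) ⊆ {p | p.1 ∈ Icc (-1 - ρ ^ 2 / 2 - 2 * (ρ ^ 2 / 6))
      (-1 - ρ ^ 2 / 2 + 2 * (ρ ^ 2 / 6)) ∧ ‖p.2 - ctr z p.1‖ ≤ r₀})
    (hψ0 : ∀ t x, 0 ≤ ψ t x)
    (hψ1 : ∀ t ∈ Icc (-1 - ρ ^ 2 / 2 - ρ ^ 2 / 6) (-1 - ρ ^ 2 / 2 + ρ ^ 2 / 6), ∀ x,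
      ‖x - ctr z t‖ ≤ r₁ → ψ t x ≠ 0)
    (hadj : ∀ (t : ℝ) (x : E3), t ≤ -1 → ‖gradient (w t) x‖ = 1 →
      adj w ψ t x ≤ K / √(‖x - ctr z t‖ ^ 2 + r₁ ^ 2) + K / r₀ ^ 2
        - (tube z (Icc (-1 - ρ ^ 2 / 2 - ρ ^ 2 / 6) (-1 - ρ ^ 2 / 2 + ρ ^ 2 / 6)) r₁).indicator
          (fun _ => 1 / r₁ ^ 2) (t, x))
    (hM : ∀ t x, ψ t x ≤ M) (hB : MeasurableSet B)
    (hgood : ∀ t ∈ Icc (-2 : ℝ) (-1), (∀ x : E3, ‖x‖ ≤ ‖z‖ + 1 → (t, x) ∉ B → ∀ y ≤ a,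
      y ∉ Om w I A σ θ t x) ∧ ar (w t) {x | (t, x) ∈ B} ≤ ENNReal.ofReal ε₁)
    (hmass : ∀ t ∈ Icc (-2 : ℝ) (-1), ENNReal.ofReal (r₁ ^ 2 / 4)
      ≤ ar (w t) (closedBall (√(-t) • z) r₁) ∧ ¬Reg (w t) (1 / 10) (√(-t) • z) r₁)
    (hquiet : ∀ t ∈ Icc (-3 / 2 : ℝ) (-1), ∀ z' : E3, ‖z'‖ ≤ ‖z‖ + 1 →
      ∀ r ∈ Icc ρ' (Real.exp (a + 4)), bbar w z' r t ≤ δ / 4)
    (hcount : ∀ F : Finset Lat, (∀ Q ∈ F, zQ Q ∈ ball z (2 * ρ) ∧ rQ Q ≤ ρ') →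
      ∑ Q ∈ F, volume {t ∈ Icc (-1 - ρ ^ 2) (-1) | δ / 2 ≤ bbar w (zQ Q) (rQ Q) t}
        ≤ N * ENNReal.ofReal (ρ ^ 2))
    (hsmall : ∀ F : Finset Lat, (∀ Q ∈ F, zQ Q ∈ ball z (2 * ρ) ∧ rQ Q ≤ ρ') →
      ∑ Q ∈ F, ∫⁻ t in {t ∈ Icc (-1 - ρ ^ 2) (-1) | δ / 2 ≤ bbar w (zQ Q) (rQ Q) t},
        ENNReal.ofReal (rQ Q ^ 2 * |deriv (bbar w (zQ Q) (rQ Q)) t|) ≤ ENNReal.ofReal (ε₂ * ρ ^ 2))
    (hε₁ : 0 ≤ ε₁) (hε₂ : 0 ≤ ε₂)
    (n1 : 4 * (2 / c * K) * A * r₀ ≤ 1 / 200) (n2 : 2 / c * (K / r₀ ^ 2) * ε₁ ≤ 1 / 200)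
    (n3 : M * (1 + Cc) * (ε * A) * N ≤ 1 / 200)
    (n4 : M * (Cw * (CXi / δ)) * (A * Λ ^ 2) * ε₂ ≤ 1 / 200)
    (n5 : 1 / r₁ ^ 2 * (A * (Λ * ρ') ^ 2) * N ≤ 1 / 200) : False := by
  classical
  have hr₁ : 0 < r₁ := by linarith only [Real.exp_pos (a - 2), har]
  have hA : 0 ≤ A := zero_le_one.trans hw.one_le
  have hM0 : 0 ≤ M := (hψ0 0 0).trans (hM 0 0)
  have hCw : 0 ≤ Cw := (he0 0).1.trans (he0 0).2
  have hX := CXi_pos
  have hρ2 : ρ ^ 2 ≤ 1 / 4 := by nlinarith only [hρ, hρ1]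
  have hρ3 : 0 < ρ ^ 2 := by positivity
  set J : Set ℝ := Ioo (-1 - ρ ^ 2) (-1) with hJ
  set T : Set ℝ := Icc (-1 - ρ ^ 2 / 2 - ρ ^ 2 / 6) (-1 - ρ ^ 2 / 2 + ρ ^ 2 / 6) with hT
  have hJ2 : J ⊆ Icc (-3 / 2) (-1) := fun t ht => ⟨by linarith only [ht.1, hρ2], ht.2.le⟩
  have hJ3 : J ⊆ Icc (-2) (-1) := fun t ht => ⟨by linarith only [ht.1, hρ2], ht.2.le⟩
  have hTJ : T ⊆ J := fun t ht => ⟨by linarith only [ht.1, hρ3], by linarith only [ht.2, hρ3]⟩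
  set S := tsupport fun p : ℝ × E3 => ψ p.1 p.2 with hS
  have hSJ : S ⊆ J ×ˢ ball z ρ := fun p hp => by
    have h1 : p.1 ∈ J := 
      ⟨by linarith only [(hψs hp).1.1, hρ3], by linarith only [(hψs hp).1.2, hρ3]⟩
    have h2 := norm_ctr_sub z h1.2.le
    have h3 := norm_add_le (p.2 - ctr z p.1) (ctr z p.1 - z)
    have h4 : (-1 - p.1) * ‖z‖ ≤ ρ ^ 2 * ‖z‖ :=
      mul_le_mul_of_nonneg_right (by linarith only [h1.1]) (norm_nonneg _)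
    rw [sub_add_sub_cancel] at h3
    exact ⟨h1, mem_ball_iff_norm.2 (by
      linarith only [(hψs hp).2, h2, h3, h4, hr₀ρ, hρ, mul_le_mul_of_nonneg_left hρz hρ.le])⟩
  have hψc : HasCompactSupport fun p : ℝ × E3 => ψ p.1 p.2 :=
    ((isCompact_Icc (a := -2) (b := -1)).prod (isCompact_closedBall z ρ)).of_isClosed_subset
      (isClosed_tsupport _) fun p hp => ⟨hJ3 (hSJ hp).1, ball_subset_closedBall (hSJ hp).2⟩
  have hJI : ∀ t ∈ J, Icc (t - ρ ^ 2) t ⊆ I := fun t ht u hu =>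
    hI ⟨by linarith only [ht.1, hu.1, hρ2], hu.2.trans ht.2.le⟩
  obtain ⟨F₀, f, G, hF₀, hf, hf0, hfz, hG⟩ := wcore (J := J) hC hcell hw hcore hδ hc hc1 he he0 hwt
    isOpen_Ioo hJI ha hψ hψc hSJ hψ0
  set F := F₀.filter fun Q => rQ Q ≤ ρ' with hF
  have hFm : ∀ Q ∈ F, zQ Q ∈ ball z (2 * ρ) ∧ rQ Q ≤ ρ' := fun Q hQ =>
    ⟨(hF₀ Q (Finset.mem_filter.1 hQ).1).1, (Finset.mem_filter.1 hQ).2⟩
  have hFq : ∀ Q ∈ F₀, ∀ p ∈ cellQ w δ Λ J Q, Q ∈ F := fun Q hQ p hp => by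
    by_contra h1
    have h2 : ¬rQ Q ≤ ρ' := fun h => h1 (Finset.mem_filter.2 ⟨hQ, h⟩)
    have h3 := norm_add_le z (zQ Q - z)
    rw [add_sub_cancel] at h3
    have h4 := hquiet p.1 (hJ2 hp.1.1) (zQ Q)
      (by linarith only [mem_ball_iff_norm.1 (hF₀ Q hQ).1, h3, hρ1]) _ ⟨(not_le.1 h2).le, (hF₀ Q hQ).2⟩
    linarith only [hp.1.2, h4, hδ]
  have hlm : ∀ Q ∈ F, MeasurableSet (loud w (δ / 2) J Q) := fun Q hQ =>
    measurableSet_loud isOpen_Ioo fun t ht => hcell.smooth w I A hw _ _ t (rQ_pos Q)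
      ((Icc_subset_Icc_left (by
        have := pow_le_pow_left₀ (rQ_pos Q).le
          ((hF₀ Q (Finset.mem_filter.1 hQ).1).2.trans ha) 2
        linarith only [this])).trans (hJI t ht))
  have heQ : ∀ Q x, 0 ≤ eQ e Q x := fun Q x => div_nonneg (he0 _).1 (sq_nonneg _)
  set l1 : ℝ × E3 → ℝ := (tube z J r₀).indicator
    fun p => 2 / c * K / √(‖p.2 - ctr z p.1‖ ^ 2 + r₁ ^ 2) with hl1
  set l2 : ℝ × E3 → ℝ := (B ∩ J ×ˢ univ).indicator fun _ => 2 / c * (K / r₀ ^ 2) with hl2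
  set l3 : Lat → ℝ × E3 → ℝ := fun Q => (cellQ w δ Λ J Q).indicator fun p =>
    M * (1 + Cc) * eQ e Q p.2 + M * (Cw * (CXi / δ)) * |deriv (bbar w (zQ Q) (rQ Q)) p.1|
      + 1 / r₁ ^ 2 with hl3
  have p1 : ∀ p, 0 ≤ l1 p := fun p => indicator_nonneg (fun _ _ => by positivity) p
  have p2 : ∀ p, 0 ≤ l2 p := fun p => indicator_nonneg (fun _ _ => by positivity) p
  have p3 : ∀ Q p, 0 ≤ l3 Q p := fun Q p => indicator_nonneg (fun p _ => by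
    have := heQ Q p.2
    positivity) p
  have p4 : ∀ p, 0 ≤ ∑ Q ∈ F, l3 Q p := fun p => Finset.sum_nonneg fun Q _ => p3 Q p
  have key := lint_le_of_int (g := (tube z T r₁).indicator fun _ => 1 / 3 * (1 / r₁ ^ 2))
    (l := fun p => l1 p + l2 p + ∑ Q ∈ F, l3 Q p) hf hf0 <| by
    filter_upwards [hC.stm_ae w I hw.toIsFlow] with p hp
    refine ⟨indicator_nonneg (fun _ _ => by positivity) p,
      add_nonneg (add_nonneg (p1 p) (p2 p)) (p4 p), ?_⟩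
    by_cases hpS : p ∈ S
    swap
    · rw [hfz p hpS, indicator_of_notMem fun h => hpS (subset_tsupport _ (hψ1 _ h.1 _ h.2))]
      linarith only [p1 p, p2 p, p4 p]
    obtain ⟨g0, g1, g2, g3, g4⟩ := hG p hpS hp.2
    have hpJ := (hSJ hpS).1
    have h1 := mul_le_mul_of_nonneg_left
      (hadj p.1 p.2 hpJ.2.le (hw.eik p.1 hp.1 p.2 hp.2).self_of_nhds) g0
    have h2 : G p * (K / √(‖p.2 - ctr z p.1‖ ^ 2 + r₁ ^ 2)) ≤ l1 p := by
      rw [hl1, indicator_of_mem (show p ∈ tube z J r₀ from ⟨hpJ, (hψs hpS).2⟩), mul_div_assoc]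
      exact mul_le_mul_of_nonneg_right g1 (by positivity)
    have h3 : G p * (K / r₀ ^ 2) ≤ l2 p := by
      by_cases hpB : p ∈ B
      · rw [hl2, indicator_of_mem (show p ∈ B ∩ J ×ˢ univ from ⟨hpB, hpJ, trivial⟩)]
        exact mul_le_mul_of_nonneg_right g1 (by positivity)
      · have h4 := norm_add_le z (p.2 - z)
        rw [add_sub_cancel] at h4
        rw [g2 ((hgood p.1 (hJ3 hpJ)).1 p.2
          (by linarith only [mem_ball_iff_norm.1 (hSJ hpS).2, h4, hρ1]) hpB), zero_mul]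
        exact p2 p
    set n : ℝ := ∑ Q ∈ F, (cellQ w δ Λ J Q).indicator (fun _ => 1 / r₁ ^ 2) p with hn
    have n0 : 0 ≤ n := Finset.sum_nonneg fun Q _ => indicator_nonneg (fun _ _ => by positivity) p
    have h4 : ψ p.1 p.2 * ∑ Q ∈ F₀, (cellQ w δ Λ J Q).indicator (fun p => (1 + Cc) * eQ e Q p.2
        + Cw * (CXi / δ) * |deriv (bbar w (zQ Q) (rQ Q)) p.1|) p + n ≤ ∑ Q ∈ F, l3 Q p := by
      rw [← Finset.sum_subset (Finset.filter_subset (fun Q => rQ Q ≤ ρ') F₀) fun Q h5 h6 =>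
        indicator_of_notMem (fun h7 => h6 (hFq Q h5 p h7)) _, Finset.mul_sum, hn,
        ← Finset.sum_add_distrib]
      refine Finset.sum_le_sum fun Q _ => ?_
      by_cases h5 : p ∈ cellQ w δ Λ J Q
      · simp only [hl3, indicator_of_mem h5]
        have h6 : 0 ≤ (1 + Cc) * eQ e Q p.2
            + Cw * (CXi / δ) * |deriv (bbar w (zQ Q) (rQ Q)) p.1| := by
          have := heQ Q p.2
          positivity
        linarith only [mul_le_mul_of_nonneg_right (hM p.1 p.2) h6]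
      · simp only [hl3, indicator_of_notMem h5, mul_zero, add_zero, le_refl]
    have h5 : (tube z T r₁).indicator (fun _ => 1 / 3 * (1 / r₁ ^ 2)) p
        ≤ G p * (tube z T r₁).indicator (fun _ => 1 / r₁ ^ 2) p + n := by
      by_cases h6 : p ∈ tube z T r₁
      swap
      · rw [indicator_of_notMem h6, indicator_of_notMem h6, mul_zero, zero_add]
        exact n0
      rw [indicator_of_mem h6, indicator_of_mem h6]
      have h7 : 0 < 1 / r₁ ^ 2 := by positivity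
      by_cases h8 : ∃ Q ∈ F₀, p ∈ cellQ w δ Λ J Q
      · obtain ⟨Q, h9, h10⟩ := h8
        have h11 := Finset.single_le_sum (s := F)
          (f := fun Q => (cellQ w δ Λ J Q).indicator (fun _ => 1 / r₁ ^ 2) p)
          (fun Q _ => indicator_nonneg (fun _ _ => h7.le) p) (hFq Q h9 p h10)
        simp only [indicator_of_mem h10] at h11
        linarith only [mul_nonneg g0 h7.le, h11, hn, h7]
      · push Not at h8
        have h9 := g3 (fun h => (hmass p.1 (hJ3 hpJ)).2 (reg_subset (reg_mono_angle h hθ)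
          (ball_subset_ball' (by
            have h10 : ‖p.2 - √(-p.1) • z‖ ≤ r₁ := h6.2
            rw [dist_comm, dist_eq_norm]
            linarith only [h10, har])))) h8
        have h10 : 1 / 3 ≤ G p := by linarith only [Real.exp_neg_one_gt_d9, h9]
        linarith only [mul_le_mul_of_nonneg_right h10 h7.le, n0]
    rw [mul_sub, mul_add] at h1
    linarith only [h1, h2, h3, h4, h5, g4]
  have hvJ : volume J = ENNReal.ofReal (ρ ^ 2) := by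
    rw [hJ, Real.volume_Ioo]
    congr 1
    ring
  have hvT : volume T = ENNReal.ofReal (ρ ^ 2 / 3) := by
    rw [hT, Real.volume_Icc]
    congr 1
    ring
  have hlow := gain_ge hC hw.toIsFlow z measurableSet_Icc ((hTJ.trans hJ3).trans hI)
    (b := 1 / 3 * (1 / r₁ ^ 2)) (by positivity) fun t ht => (hmass t (hJ3 (hTJ ht))).1
  have m1 : Measurable l1 := measurable_l1 z measurableSet_Ioo _ _ _
  have m2 : Measurable l2 := measurable_const.indicator (hB.inter (measurableSet_Ioo.prod .univ))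
  have m3 : ∀ Q ∈ F, Measurable (l3 Q) := fun Q hQ => by
    have hem : Measurable (eQ e Q) := (he.comp (by fun_prop)).div_const _
    exact Measurable.indicator ((((hem.comp measurable_snd).const_mul _).add
      ((((measurable_deriv _).comp measurable_fst).abs).const_mul _)).add_const _)
      ((hlm Q hQ).prod measurableSet_ball)
  have hsplit : ∫⁻ p, ENNReal.ofReal (l1 p + l2 p + ∑ Q ∈ F, l3 Q p) ∂(stm w I)
      = ∫⁻ p, ENNReal.ofReal (l1 p) ∂(stm w I) + ∫⁻ p, ENNReal.ofReal (l2 p) ∂(stm w I)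
        + ∑ Q ∈ F, ∫⁻ p, ENNReal.ofReal (l3 Q p) ∂(stm w I) := by
    have m4 : Measurable fun p => ENNReal.ofReal (l1 p) + ENNReal.ofReal (l2 p) :=
      m1.ennreal_ofReal.add m2.ennreal_ofReal
    rw [← lintegral_finsetSum F fun Q hQ => (m3 Q hQ).ennreal_ofReal,
      ← lintegral_add_left m1.ennreal_ofReal, ← lintegral_add_left m4]
    refine lintegral_congr fun p => ?_
    rw [ENNReal.ofReal_add (add_nonneg (p1 p) (p2 p)) (p4 p), ENNReal.ofReal_add (p1 p) (p2 p),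
      ENNReal.ofReal_sum_of_nonneg fun Q _ => p3 Q p]
  have b1 := loss1 hC hw z (J := J) measurableSet_Ioo hr₀ hr₁ (M := 2 / c * K) (by positivity)
  have b2 := loss2 hC hw.toIsFlow (J := J) measurableSet_Ioo hB (b := 2 / c * (K / r₀ ^ 2))
    (by positivity) fun t ht => (hgood t (hJ3 ht)).2
  have hsub : ∀ Q, loud w (δ / 2) J Q
      ⊆ {t ∈ Icc (-1 - ρ ^ 2) (-1) | δ / 2 ≤ bbar w (zQ Q) (rQ Q) t} :=
    fun Q t ht => ⟨Ioo_subset_Icc_self ht.1, ht.2⟩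
  have b3 : ∑ Q ∈ F, ∫⁻ p, ENNReal.ofReal (l3 Q p) ∂(stm w I)
      ≤ ENNReal.ofReal (M * (1 + Cc) * (ε * A) + 1 / r₁ ^ 2 * (A * (Λ * ρ') ^ 2))
          * (N * ENNReal.ofReal (ρ ^ 2))
        + ENNReal.ofReal (M * (Cw * (CXi / δ)) * (A * Λ ^ 2)) * ENNReal.ofReal (ε₂ * ρ ^ 2) := by
    refine (Finset.sum_le_sum fun Q hQ => lossQ hC hw (hlm Q hQ) hΛ hε he (fun x => (he0 x).1) he1
      (by positivity) (by positivity) (by positivity) (hFm Q hQ).2).trans ?_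
    rw [Finset.sum_add_distrib, ← Finset.mul_sum, ← Finset.mul_sum]
    exact add_le_add (mul_le_mul_right ((Finset.sum_le_sum fun Q _ =>
      measure_mono (hsub Q)).trans (hcount F hFm)) _) (mul_le_mul_right
        ((Finset.sum_le_sum fun Q _ => lintegral_mono_set (hsub Q)).trans (hsmall F hFm)) _)
  have fin := hlow.trans (key.trans (hsplit.le.trans (add_le_add (add_le_add b1 b2) b3)))
  rw [hvJ, hvT, ← ENNReal.ofReal_coe_nnreal, ← ENNReal.ofReal_mul (by positivity),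
    ← ENNReal.ofReal_mul (by positivity), ← ENNReal.ofReal_mul (by positivity),
    ← ENNReal.ofReal_mul (by positivity), ← ENNReal.ofReal_mul (by positivity),
    ← ENNReal.ofReal_mul (by positivity), ← ENNReal.ofReal_add (by positivity) (by positivity),
    ← ENNReal.ofReal_add (by positivity) (by positivity),
    ← ENNReal.ofReal_add (by positivity) (by positivity),
    ENNReal.ofReal_le_ofReal_iff (by positivity)] at fin
  have e1 : 1 / 3 * (1 / r₁ ^ 2) * (r₁ ^ 2 / 4) * (ρ ^ 2 / 3) = 1 / 36 * ρ ^ 2 := by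
    field_simp
    ring
  rw [e1] at fin
  linarith only [fin, hρ3, mul_le_mul_of_nonneg_right n1 hρ3.le,
    mul_le_mul_of_nonneg_right n2 hρ3.le,
    mul_le_mul_of_nonneg_right n3 hρ3.le, mul_le_mul_of_nonneg_right n4 hρ3.le,
    mul_le_mul_of_nonneg_right n5 hρ3.le]

end Vale.Agent.P218UD
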