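import Vale.Agent.P218UD.Lat
import Vale.Agent.P218UM.Heat

/-! A logarithmic test function with a moving centre. -/

open MeasureTheory Set Filter Topology Metric
open scoped ENNReal NNReal RealInnerProductSpace ContDiff

namespace Vale.Agent.P218UD

open Vale.Agent.P218UA Vale.Agent.P218UM
open Vale.Agent.P218.H63 (lap hessSq)

/-- the profile: `0` for `L ≤ 0` and `L + 1` for `L ≥ 1` -/
noncomputable def Fp (L : ℝ) : ℝ := Real.smoothTransition L ^ 2 * (L + 1)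

lemma contDiff_Fp {n : ℕ∞} : ContDiff ℝ n Fp :=
  (Real.smoothTransition.contDiff.pow 2).mul (contDiff_id.add contDiff_const)

lemma Fp_zero {L : ℝ} (h : L ≤ 0) : Fp L = 0 := by
  simp [Fp, Real.smoothTransition.zero_of_nonpos h]

lemma Fp_one {L : ℝ} (h : 1 ≤ L) : Fp L = L + 1 := by
  simp [Fp, Real.smoothTransition.one_of_one_le h]

lemma Fp_nonneg (L : ℝ) : 0 ≤ Fp L := by
  rcases le_total L 0 with h | h
  · exact (Fp_zero h).ge
  · exact mul_nonneg (sq_nonneg _) (by linarith)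

lemma Fp_le {L : ℝ} (h : 0 ≤ L) : Fp L ≤ L + 1 :=
  mul_le_of_le_one_left (by linarith)
    (pow_le_one₀ (Real.smoothTransition.nonneg _) (Real.smoothTransition.le_one _))

lemma deriv_Fp_one {L : ℝ} (h : 1 < L) : deriv Fp L = 1 := by
  have : Fp =ᶠ[𝓝 L] fun L => L + 1 := (lt_mem_nhds h).mono fun _ h => Fp_one h.le
  rw [this.deriv_eq]
  simp

lemma deriv_Fp_zero {L : ℝ} (h : L < 0) : deriv Fp L = 0 := by
  have : Fp =ᶠ[𝓝 L] fun _ => 0 := (gt_mem_nhds h).mono fun _ h => Fp_zero h.le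
  rw [this.deriv_eq, deriv_const]

lemma deriv2_Fp {L : ℝ} (h : 1 < L) : deriv (deriv Fp) L = 0 := by
  have : deriv Fp =ᶠ[𝓝 L] fun _ => 1 := (lt_mem_nhds h).mono fun _ h => deriv_Fp_one h
  rw [this.deriv_eq, deriv_const]

lemma contDiff_deriv_Fp : ContDiff ℝ 1 (deriv Fp) :=
  (contDiff_succ_iff_deriv.1 (show ContDiff ℝ (1 + 1) Fp from contDiff_Fp (n := 2))).2.2

lemma exists_Fp_bound : ∃ K : ℝ, 1 ≤ K ∧ ∀ L, |deriv Fp L| ≤ K ∧ |deriv (deriv Fp) L| ≤ K ∧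
    deriv Fp L ^ 2 ≤ K * Fp L := by
  obtain ⟨K₀, hK₀, h0⟩ := exists_deriv_bound (Real.smoothTransition.contDiff (n := 1))
    (fun _ => Real.smoothTransition.zero_of_nonpos) fun _ => Real.smoothTransition.one_of_one_le
  obtain ⟨K₁, hK₁, h1⟩ := exists_deriv_bound contDiff_deriv_Fp (a := -1) (b := 2)
    (fun _ h => deriv_Fp_zero (by linarith)) fun _ h => deriv_Fp_one (by linarith)
  have key : ∀ L, |deriv Fp L| ≤ (4 * K₀ + 1) * Real.smoothTransition L := fun L => by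
    have s0 := Real.smoothTransition.nonneg L
    have s1 := Real.smoothTransition.le_one L
    rcases lt_or_ge L 0 with h | h
    · rw [deriv_Fp_zero h, abs_zero]
      positivity
    rcases lt_or_ge 1 L with h' | h'
    · rw [deriv_Fp_one h', Real.smoothTransition.one_of_one_le h'.le, abs_one]
      linarith
    have hd := ((Real.smoothTransition.contDiff (n := 1)).differentiable one_ne_zero L).hasDerivAt
    have h2 : HasDerivAt Fp _ L := (hd.fun_pow 2).fun_mul ((hasDerivAt_id' L).add_const 1)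
    rw [h2.deriv]
    have h3 := abs_le.1 (h0 L)
    have h4 : |deriv Real.smoothTransition L * (L + 1)| ≤ K₀ * 2 := by
      rw [abs_mul, abs_of_nonneg (by linarith : 0 ≤ L + 1)]
      exact mul_le_mul (h0 L) (by linarith) (by linarith) hK₀.le
    have h5 := abs_le.1 h4
    rw [abs_le]
    norm_num
    constructor <;> nlinarith [h5.1, h5.2]
  refine ⟨(4 * K₀ + 1) ^ 2 + K₁, by nlinarith, fun L => ⟨?_, ?_, ?_⟩⟩
  · have := key L
    nlinarith [Real.smoothTransition.le_one L]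
  · nlinarith [h1 L]
  · rcases lt_or_ge L 0 with h | h
    · rw [deriv_Fp_zero h, Fp_zero h.le]
      simp
    have h2 := pow_le_pow_left₀ (abs_nonneg _) (key L) 2
    rw [sq_abs, mul_pow] at h2
    have h3 : Real.smoothTransition L ^ 2 ≤ Fp L :=
      le_mul_of_one_le_right (sq_nonneg _) (by linarith)
    nlinarith [Fp_nonneg L, sq_nonneg (4 * K₀ + 1)]

/-- the argument of the profile -/
noncomputable def Lg (r₀ r₁ q : ℝ) : ℝ := Real.log (r₀ ^ 2 + r₁ ^ 2) - Real.log (q + r₁ ^ 2)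

/-- the test function as a function of the squared distance -/
noncomputable def fr (r₀ r₁ q : ℝ) : ℝ := Fp (Lg r₀ r₁ q)

variable {r₀ r₁ q : ℝ}

lemma hasDerivAt_Lg (h : 0 < q + r₁ ^ 2) : HasDerivAt (Lg r₀ r₁) (-(q + r₁ ^ 2)⁻¹) q := by
  have := (((hasDerivAt_id' q).add_const (r₁ ^ 2)).log h.ne').const_sub (Real.log (r₀ ^ 2 + r₁ ^ 2))
  rwa [one_div] at this

lemma contDiffAt_fr (h : 0 < q + r₁ ^ 2) : ContDiffAt ℝ 2 (fr r₀ r₁) q :=
  (contDiff_Fp (n := 2)).contDiffAt.comp q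
    (contDiffAt_const.sub ((contDiffAt_id.add contDiffAt_const).log h.ne'))

lemma deriv_fr (h : 0 < q + r₁ ^ 2) :
    deriv (fr r₀ r₁) q = -deriv Fp (Lg r₀ r₁ q) / (q + r₁ ^ 2) := by
  have h1 : HasDerivAt (fr r₀ r₁) _ q :=
    ((contDiff_Fp (n := 1)).differentiable one_ne_zero _).hasDerivAt.comp q (hasDerivAt_Lg h)
  rw [h1.deriv]
  field_simp

lemma deriv2_fr (h : 0 < q + r₁ ^ 2) : deriv (deriv (fr r₀ r₁)) q
    = (deriv (deriv Fp) (Lg r₀ r₁ q) + deriv Fp (Lg r₀ r₁ q)) / (q + r₁ ^ 2) ^ 2 := by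
  have h0 : deriv (fr r₀ r₁) =ᶠ[𝓝 q] fun q => -deriv Fp (Lg r₀ r₁ q) / (q + r₁ ^ 2) := by
    have : ContinuousAt (fun q : ℝ => q + r₁ ^ 2) q := by fun_prop
    exact (this.eventually (lt_mem_nhds h)).mono fun _ h => deriv_fr h
  have h1 := (contDiff_deriv_Fp.differentiable one_ne_zero _).hasDerivAt.comp q
    (hasDerivAt_Lg (r₀ := r₀) h)
  have h2 := h1.fun_neg.fun_div ((hasDerivAt_id' q).add_const (r₁ ^ 2)) h.ne'
  rw [h0.deriv_eq]
  refine h2.deriv.trans ?_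
  simp only [Function.comp_apply]
  field_simp
  ring

lemma fr_zero (hr : 0 < r₁) (h : r₀ ^ 2 ≤ q) : fr r₀ r₁ q = 0 :=
  Fp_zero (sub_nonpos.2 (Real.log_le_log (by positivity) (by linarith)))

lemma fr_mul_le (hr : 0 < r₁) (h3 : 3 * r₁ ≤ r₀) (hq : 0 ≤ q) :
    fr r₀ r₁ q * √(q + r₁ ^ 2) ≤ 3 * r₀ := by
  rcases le_total (Lg r₀ r₁ q) 0 with h | h
  · rw [fr, Fp_zero h, zero_mul]
    linarith
  have hm : 0 < √(q + r₁ ^ 2) := Real.sqrt_pos.2 (by positivity)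
  have hb : 0 < √(r₀ ^ 2 + r₁ ^ 2) := Real.sqrt_pos.2 (by positivity)
  have h1 : Lg r₀ r₁ q = 2 * Real.log (√(r₀ ^ 2 + r₁ ^ 2) / √(q + r₁ ^ 2)) := by
    rw [Real.log_div hb.ne' hm.ne', Real.log_sqrt (by positivity), Real.log_sqrt (by positivity), Lg]
    ring
  have h2 := Real.log_le_sub_one_of_pos (div_pos hb hm)
  have h4 : √(r₀ ^ 2 + r₁ ^ 2) ≤ 3 / 2 * r₀ := Real.sqrt_le_iff.2 ⟨by linarith, by nlinarith⟩
  have h5 : fr r₀ r₁ q ≤ 2 * (√(r₀ ^ 2 + r₁ ^ 2) / √(q + r₁ ^ 2)) := by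
    have := Fp_le h
    rw [fr]
    linarith
  calc _ ≤ 2 * (√(r₀ ^ 2 + r₁ ^ 2) / √(q + r₁ ^ 2)) * √(q + r₁ ^ 2) :=
        mul_le_mul_of_nonneg_right h5 hm.le
    _ = 2 * √(r₀ ^ 2 + r₁ ^ 2) := by field_simp
    _ ≤ _ := by linarith

/-- the spatial part of the adjoint operator applied to the test function -/
lemma spatial_le {K : ℝ} (hK1 : 1 ≤ K) (hK : ∀ L, |deriv Fp L| ≤ K ∧ |deriv (deriv Fp) L| ≤ K ∧
    deriv Fp L ^ 2 ≤ K * Fp L) (hr : 0 < r₁) (h3 : 3 * r₁ ≤ r₀) {H h : ℝ} (hh : h ^ 2 ≤ q) :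
    deriv (fr r₀ r₁) q * 4 + deriv (deriv (fr r₀ r₁)) q * (4 * q - 4 * h ^ 2)
      - 2 * H * (2 * deriv (fr r₀ r₁) q * h) - H ^ 2 * fr r₀ r₁ q
      ≤ 60 * K / r₀ ^ 2 - if q ≤ r₁ ^ 2 then 1 / r₁ ^ 2 else 0 := by
  have hq : 0 ≤ q := (sq_nonneg h).trans hh
  have hr₀ : 0 < r₀ := by linarith
  set m := q + r₁ ^ 2 with hm
  have hm0 : 0 < m := by positivity
  rw [deriv2_fr hm0, deriv_fr hm0, fr]
  set L := Lg r₀ r₁ q with hL
  have hpos : 0 ≤ 60 * K / r₀ ^ 2 := by positivity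
  rcases lt_or_ge 1 L with h1 | h1
  · rw [deriv2_Fp h1, deriv_Fp_one h1, Fp_one h1.le, ← hm]
    have e : -1 / m * 4 + (0 + 1) / m ^ 2 * (4 * q - 4 * h ^ 2) - 2 * H * (2 * (-1 / m) * h)
        - H ^ 2 * (L + 1) = -(4 * r₁ ^ 2 / m ^ 2) - (2 * h / m - H) ^ 2 - H ^ 2 * L := by
      have : q = m - r₁ ^ 2 := by rw [hm]; ring
      rw [this]
      field_simp
      ring
    have h2 : 0 ≤ H ^ 2 * L := by positivity
    have h4 : (if q ≤ r₁ ^ 2 then 1 / r₁ ^ 2 else 0) ≤ 4 * r₁ ^ 2 / m ^ 2 := by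
      split_ifs with h5
      · rw [div_le_div_iff₀ (by positivity) (by positivity)]
        have : m ≤ 2 * r₁ ^ 2 := by linarith
        nlinarith [pow_le_pow_left₀ hm0.le this 2]
      · positivity
    rw [e]
    linarith [sq_nonneg (2 * h / m - H)]
  · have h2 : r₀ ^ 2 + r₁ ^ 2 ≤ 3 * m := by
      have h4 : Real.log (r₀ ^ 2 + r₁ ^ 2) ≤ Real.log (Real.exp 1 * m) := by
        rw [Real.log_mul (Real.exp_pos _).ne' hm0.ne', Real.log_exp]
        rw [hL, Lg] at h1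
        linarith
      have h5 := (Real.log_le_log_iff (by positivity) (by positivity)).1 h4
      nlinarith [Real.exp_one_lt_d9]
    have h4 : ¬q ≤ r₁ ^ 2 := fun h5 => by nlinarith
    rw [if_neg h4, sub_zero, ← hm]
    obtain ⟨k1, k2, k3⟩ := hK L
    set a := deriv Fp L
    set b := deriv (deriv Fp) L
    have hF := Fp_nonneg L
    set F := Fp L
    have k4 := abs_le.1 k1
    have k5 := abs_le.1 k2
    have hqm : q ≤ m := by rw [hm]; linarith [sq_nonneg r₁]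
    set u := h / m with hu
    have h5 : 4 * H * a * u - H ^ 2 * F ≤ 4 * K * u ^ 2 := by
      have h6 : 0 ≤ K * (4 * K * u ^ 2 + H ^ 2 * F - 4 * H * a * u) := by
        nlinarith [sq_nonneg (2 * K * u - H * a), mul_le_mul_of_nonneg_left k3 (sq_nonneg H)]
      have := nonneg_of_mul_nonneg_right h6 (by linarith : 0 < K)
      linarith
    have h6 : u ^ 2 ≤ 1 / m := by
      rw [hu, div_pow, div_le_div_iff₀ (by positivity) hm0]
      nlinarith
    have h7 : (b + a) / m ^ 2 * (4 * q - 4 * h ^ 2) ≤ 8 * K / m := by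
      rw [div_mul_eq_mul_div, div_le_div_iff₀ (by positivity) hm0]
      have h8 : (b + a) * (4 * q - 4 * h ^ 2) ≤ 2 * K * (4 * m) :=
        (mul_le_mul_of_nonneg_right (by linarith : b + a ≤ 2 * K) (by linarith)).trans
          (mul_le_mul_of_nonneg_left (by nlinarith [sq_nonneg h]) (by linarith))
      nlinarith
    have h8 : -a / m * 4 ≤ 4 * K / m := by
      rw [div_mul_eq_mul_div]
      exact div_le_div_of_nonneg_right (by linarith) hm0.le
    have h9 : 16 * K / m ≤ 60 * K / r₀ ^ 2 := by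
      rw [div_le_div_iff₀ hm0 (by positivity)]
      nlinarith [sq_nonneg r₁]
    have e1 : 2 * H * (2 * (-a / m) * h) = -(4 * H * a * u) := by rw [hu]; ring
    have e2 : 16 * K / m = 4 * K / m + 8 * K / m + 4 * K * (1 / m) := by ring
    rw [e1]
    nlinarith [mul_le_mul_of_nonneg_left h6 (by linarith : 0 ≤ 4 * K)]

lemma gradient_dist_sq (c x : E3) : gradient (fun y : E3 => ‖y - c‖ ^ 2) x = (2 : ℝ) • (x - c) := by
  refine ext_inner_right ℝ fun v => ?_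
  have h := (hasStrictFDerivAt_norm_sq (x - c)).hasFDerivAt.comp x ((hasFDerivAt_id x).sub_const c)
  rw [inner_gradient, real_inner_smul_left]
  erw [h.fderiv]
  simp [inner_sub_left]

lemma trT_dist_sq {n : E3} (hn : ‖n‖ = 1) (c x : E3) :
    trT n (hs (fun y : E3 => ‖y - c‖ ^ 2) x) = 4 := by
  have h1 : gradient (fun y : E3 => ‖y - c‖ ^ 2) = fun x => (2 : ℝ) • (x - c) :=
    funext (gradient_dist_sq c)
  have h2 : hs (fun y : E3 => ‖y - c‖ ^ 2) x = (2 : ℝ) • ContinuousLinearMap.id ℝ E3 := by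
    rw [hs, h1]
    exact (((hasFDerivAt_id x).sub_const c).const_smul (2 : ℝ)).fderiv
  rw [trT, trace_eq, h2]
  simp only [smul_apply, ContinuousLinearMap.id_apply, real_inner_smul_left,
    real_inner_self_eq_norm_sq, hn, OrthonormalBasis.norm_eq_one, Fin.sum_univ_three]
  norm_num

/-- the adjoint operator applied to a radial function with a moving centre -/
theorem adj_radial (w : ℝ → E3 → ℝ) {χ f : ℝ → ℝ} {c : ℝ → E3} {c' x : E3} {t : ℝ}
    (hχ : DifferentiableAt ℝ χ t) (hc : HasDerivAt c c' t)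
    (hf : ContDiffAt ℝ 2 f (‖x - c t‖ ^ 2)) (hn : ‖gradient (w t) x‖ = 1) :
    adj w (fun s y => χ s * f (‖y - c s‖ ^ 2)) t x = deriv χ t * f (‖x - c t‖ ^ 2)
      - χ t * (2 * deriv f (‖x - c t‖ ^ 2) * ⟪x - c t, c'⟫)
      + χ t * (deriv f (‖x - c t‖ ^ 2) * 4 + deriv (deriv f) (‖x - c t‖ ^ 2)
          * (4 * ‖x - c t‖ ^ 2 - 4 * ⟪x - c t, gradient (w t) x⟫ ^ 2)
        - 2 * lap (w t) x * (2 * deriv f (‖x - c t‖ ^ 2) * ⟪x - c t, gradient (w t) x⟫)
        - lap (w t) x ^ 2 * f (‖x - c t‖ ^ 2)) := by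
  have hu : ContDiffAt ℝ 2 (fun y : E3 => ‖y - c t‖ ^ 2) x :=
    (contDiffAt_id.sub contDiffAt_const).norm_sq ℝ
  have hf1 : DifferentiableAt ℝ f (‖x - c t‖ ^ 2) := hf.differentiableAt (by norm_num)
  have h1 : HasDerivAt (fun s => χ s * f (‖x - c s‖ ^ 2)) _ t :=
    hχ.hasDerivAt.fun_mul (hf1.hasDerivAt.comp t ((hc.const_sub x).norm_sq))
  have h2 : ContDiffAt ℝ 2 (fun y : E3 => f (‖y - c t‖ ^ 2)) x := hf.comp x hu
  simp only [adj]
  rw [h1.deriv, trT_const_mul _ h2, trT_comp hf hu, trT_dist_sq hn,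
    gradient_const_mul _ (h2.differentiableAt (by norm_num)),
    gradient_comp hf1 (hu.differentiableAt (by norm_num)), gradient_dist_sq]
  simp only [real_inner_smul_left, norm_smul, Real.norm_ofNat, inner_neg_right]
  ring

end Vale.Agent.P218UD
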