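import Vale.Agent.P218UM.RegMass

/-! Dilations of measures, and statements which hold uniformly in time along a blow-up sequence. -/

open MeasureTheory Set Filter Topology Metric
open scoped ENNReal NNReal RealInnerProductSpace ContDiff

namespace Vale.Agent.P218UD

open Vale.Agent.P218UA Vale.Agent.P218UM
open Vale.Agent.P218 (WeakTendsto)
open Vale.Agent.P218.H63 (lap hessSq)

section scal

variable {ν : Measure E3} {c : ℝ}

lemma integral_scal (hc : 0 < c) (f : E3 → ℝ) :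
    ∫ y, f y ∂(scal ν c) = c ^ 2 * ∫ y, f (c • y) ∂ν := by
  rw [scal, integral_smul_measure, (measurableEmbedding_const_smul₀ hc.ne').integral_map,
    ENNReal.toReal_ofReal (sq_nonneg c), smul_eq_mul]

lemma scal_apply (hc : 0 < c) (S : Set E3) :
    scal ν c S = ENNReal.ofReal (c ^ 2) * ν ((fun x => c • x) ⁻¹' S) := by
  rw [scal, Measure.smul_apply, (measurableEmbedding_const_smul₀ hc.ne').map_apply, smul_eq_mul]

lemma norm_smul_sub (hc : 0 < c) (y z : E3) : ‖c • y - c • z‖ = c * ‖y - z‖ := by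
  rw [← smul_sub, norm_smul, Real.norm_eq_abs, abs_of_pos hc]

lemma AR_scal {A : ℝ} (hc : 0 < c) (h : AR ν A) : AR (scal ν c) A := fun x r hr => by
  have e : (fun y : E3 => c • y) ⁻¹' closedBall x r = closedBall (c⁻¹ • x) (r / c) := by
    ext y
    have := norm_smul_sub hc y (c⁻¹ • x)
    rw [smul_inv_smul₀ hc.ne'] at this
    rw [mem_preimage, mem_closedBall_iff_norm, mem_closedBall_iff_norm, this, le_div_iff₀ hc,
      mul_comm]
  rw [scal_apply hc, e]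
  refine (mul_le_mul_right (h _ _ (by positivity)) _).trans (le_of_eq ?_)
  rw [← ENNReal.ofReal_mul (sq_nonneg c)]
  congr 1
  field_simp

lemma test_scal (hc : 0 < c) (φ : E3 → ℝ) (z : E3) (r : ℝ) :
    (∫ y, φ ((c * r)⁻¹ • (y - c • z)) ∂(scal ν c)) / (c * r) ^ 2
      = (∫ y, φ (r⁻¹ • (y - z)) ∂ν) / r ^ 2 := by
  have e : ∀ y : E3, (c * r)⁻¹ • (c • y - c • z) = r⁻¹ • (y - z) := fun y => by
    rw [← smul_sub, smul_smul, mul_inv, mul_comm c⁻¹, mul_assoc, inv_mul_cancel₀ hc.ne', mul_one]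
  rw [integral_scal hc]
  simp only [e]
  rw [mul_pow, mul_div_mul_left _ _ (by positivity)]

lemma mk_scal (hc : 0 < c) (z : E3) (r : ℝ) : mk (scal ν c) (c • z) (c * r) = mk ν z r :=
  test_scal hc kk z r

lemma nearPl_scal (hc : 0 < c) {z : E3} {r L δ : ℝ} (h : NearPl ν z r L δ) :
    NearPl (scal ν c) (c • z) (c * r) L δ := by
  obtain ⟨n, k, a, hn, h⟩ := h
  exact ⟨n, k, a, hn, fun φ hφ => by rw [test_scal hc]; exact h φ hφ⟩

lemma gd_scal (hc : 0 < c) : gd (scal ν c) 0 c = gd ν 0 1 := by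
  have e : ∀ y : E3, -‖c • y - 0‖ ^ 2 / (4 * c ^ 2) = -‖y - 0‖ ^ 2 / (4 * 1 ^ 2) := fun y => by
    rw [sub_zero, sub_zero, norm_smul, Real.norm_eq_abs, abs_of_pos hc]
    field_simp
  rw [gd, gd, integral_scal hc]
  simp only [e]
  field_simp

end scal

/-- uniformity in a parameter from a compact set, from a statement about subsequences -/
theorem ev_unif {X : Type*} [TopologicalSpace X] [FirstCountableTopology X] {K : Set X}
    (hK : IsCompact K) {P : ℕ → X → Prop}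
    (h : ∀ φ : ℕ → ℕ, StrictMono φ → ∀ (t : ℕ → X), (∀ i, t i ∈ K) → ∀ t' ∈ K,
      Tendsto t atTop (𝓝 t') → ∀ᶠ i in atTop, P (φ i) (t i)) :
    ∀ᶠ i in atTop, ∀ t ∈ K, P i t := by
  by_contra hc
  rw [not_eventually] at hc
  obtain ⟨φ, hφ, h1⟩ := extraction_of_frequently_atTop hc
  push Not at h1
  choose t ht h2 using h1
  obtain ⟨t', ht', ψ, hψ, h3⟩ := hK.tendsto_subseq ht
  obtain ⟨i, hi⟩ := (h (φ ∘ ψ) (hφ.comp hψ) (t ∘ ψ) (fun i => ht _) t' ht' h3).exists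
  exact h2 _ hi

variable {w : ℝ → E3 → ℝ} {a A C : ℝ} {s : ℕ → ℝ} {ν : Measure E3}

lemma tanSeq_sub (h : TanSeq w s ν) {φ : ℕ → ℕ} (hφ : StrictMono φ) : TanSeq w (s ∘ φ) ν :=
  ⟨fun _ => h.pos _, h.lim.comp hφ.tendsto_atTop, h.locFin,
    fun f hf hc => (h.weak f hf hc).comp hφ.tendsto_atTop⟩

lemma ev_left (ha : a < 0) (h : TanSeq w s ν) (T : ℝ) : ∀ᶠ i in atTop, a / s i ^ 2 < T := by
  have h1 : Tendsto (fun i => s i ^ 2 * (|T| + 1)) atTop (𝓝 (0 ^ 2 * (|T| + 1))) :=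
    (h.lim.pow 2).mul_const _
  filter_upwards [h1.eventually (gt_mem_nhds (show 0 ^ 2 * (|T| + 1) < -a by simpa using ha))]
    with i hi
  have := h.pos i
  rw [div_lt_iff₀ (by positivity)]
  nlinarith [neg_abs_le T, sq_nonneg (s i)]

lemma ev_AR (hT : Tan) (ha : a < 0) (hw : IsGood w (Ioo a 0) A C) (h : TanSeq w s ν) {t : ℕ → ℝ}
    {t' : ℝ} (ht' : t' < 0) (ht : Tendsto t atTop (𝓝 t')) :
    ∀ᶠ i in atTop, AR (ar (resc w (s i) (t i))) A := by
  filter_upwards [ev_left ha h (t' - 1), ht.eventually (Ioo_mem_nhds (sub_one_lt t') ht')]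
    with i h1 h2
  exact (hT.resc_good w a A C hw _ (h.pos i)).ratio _ ⟨h1.trans h2.1, h2.2⟩

lemma one_le_sqrt {t : ℝ} (ht : t ≤ -1) : 1 ≤ √(-t) := Real.one_le_sqrt.2 (by linarith)

lemma beta_le {μ : Measure E3} {z : E3} {r L δ : ℝ} (hδ : 0 ≤ δ) (h : NearPl μ z r L δ) :
    beta μ z r L ≤ δ :=
  csInf_le ⟨0, fun _ h => h.1⟩ ⟨hδ, h⟩

lemma beta_nonneg (μ : Measure E3) (z : E3) (r L : ℝ) : 0 ≤ beta μ z r L :=
  Real.sInf_nonneg fun _ h => h.1

lemma expNegInvGlue_le_one (x : ℝ) : expNegInvGlue x ≤ 1 := by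
  unfold expNegInvGlue
  split_ifs with h
  · exact zero_le_one
  · exact Real.exp_le_one_iff.2 (neg_nonpos.2 (inv_nonneg.2 (not_le.1 h).le))

lemma bbar_le {z : E3} {r t δ : ℝ} (hδ : 0 ≤ δ)
    (h : ∀ t' ∈ Icc (t - r ^ 2) t, beta (ar (w t')) z r 10 ≤ δ) : bbar w z r t ≤ δ := by
  have h0 : ∀ x, 0 ≤ k01 x := fun x =>
    mul_nonneg (expNegInvGlue.nonneg _) (expNegInvGlue.nonneg _)
  have h1 : ∀ x, k01 x ≤ 1 := fun x =>
    mul_le_one₀ (expNegInvGlue_le_one _) (expNegInvGlue.nonneg _) (expNegInvGlue_le_one _)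
  have h2 : ∫ x, (Icc (0 : ℝ) 1).indicator (fun _ => δ) x = δ := by
    rw [integral_indicator measurableSet_Icc]
    simp
  rw [← h2]
  refine integral_mono_of_nonneg (Eventually.of_forall fun x =>
    mul_nonneg (h0 x) (beta_nonneg _ _ _ _))
    ((integrableOn_const (by simp)).integrable_indicator measurableSet_Icc)
    (Eventually.of_forall fun x => ?_)
  by_cases hx : x ∈ Icc (0 : ℝ) 1
  · rw [indicator_of_mem hx]
    have h3 := h (t - x * r ^ 2) ⟨by nlinarith [hx.2, sq_nonneg r], by nlinarith [hx.1, sq_nonneg r]⟩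
    have h4 := beta_nonneg (ar (w (t - x * r ^ 2))) z r 10
    nlinarith [h0 x, h1 x]
  · have h3 : k01 x = 0 := by
      rw [mem_Icc, not_and_or, not_le, not_le] at hx
      rcases hx with hx | hx
      · rw [k01, expNegInvGlue.zero_of_nonpos hx.le, zero_mul]
      · rw [k01, expNegInvGlue.zero_of_nonpos (x := 1 - x) (by linarith), mul_zero]
    simp [h3, indicator_of_notMem hx]

/-- in a fixed range of small scales the rescaled flows are close to parallel planes -/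
theorem ev_beta (hT : Tan) (ha : a < 0) (hw : IsGood w (Ioo a 0) A C) (h : TanSeq w s ν)
    (hF : Flat ν) (R : ℝ) {δ : ℝ} (hδ : 0 < δ) : ∃ r₂ > 0, ∀ r₁ > 0, ∀ᶠ i in atTop,
      ∀ t ∈ Icc (-2 : ℝ) (-1), ∀ z : E3, ‖z‖ ≤ R → ∀ r ∈ Icc r₁ r₂,
        beta (ar (resc w (s i) t)) z r 10 ≤ δ := by
  obtain ⟨r₀, hr₀, hF⟩ := hF R 10 (δ / 2) (by positivity)
  refine ⟨r₀ / 2, by positivity, fun r₁ hr₁ => ev_unif isCompact_Icc ?_⟩
  intro φ hφ t _ t' ht' htt
  have h' := tanSeq_sub h hφ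
  have h0 : t' < 0 := by linarith [ht'.2]
  have hc := one_le_sqrt ht'.2
  have hc0 : 0 < √(-t') := by linarith
  have hν := hT.ratio w a A ha hw.toIsARFlow _ _ h
  filter_upwards [hT.near_lim _ _ A (ev_AR hT ha hw h' h0 htt) (AR_scal hc0 hν)
    (hT.slow w a A ha hw.toIsARFlow _ _ h' t t' h0 htt) R r₁ (r₀ / 2) 10 (δ / 2) hr₁
    (by positivity)] with i hi z hz r hr
  have hr0 : 0 < r := hr₁.trans_le hr.1
  have h1 : ‖(√(-t'))⁻¹ • z‖ ≤ R := by
    rw [norm_smul, norm_inv, Real.norm_eq_abs, abs_of_pos hc0]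
    exact (mul_le_of_le_one_left (norm_nonneg _) (inv_le_one_of_one_le₀ hc)).trans hz
  have h2 := nearPl_scal hc0 (hF _ h1 (r / √(-t')) (by positivity)
    ((div_le_self hr0.le hc).trans_lt (by linarith [hr.2])))
  rw [smul_inv_smul₀ hc0.ne', mul_div_cancel₀ _ hc0.ne'] at h2
  obtain ⟨n, k, b, hn, h2⟩ := h2
  refine beta_le hδ.le ⟨n, k, b, hn, fun f hf => ?_⟩
  have h3 := abs_le.1 (h2 f hf)
  have h4 := abs_le.1 (hi z hz r hr f hf)
  simp only [Function.comp_apply] at h4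
  rw [abs_le]
  constructor <;> linarith [h3.1, h3.2, h4.1, h4.2]

/-- in a fixed range of small scales all balls are quiet -/
theorem ev_bbar (hT : Tan) (ha : a < 0) (hw : IsGood w (Ioo a 0) A C) (h : TanSeq w s ν)
    (hF : Flat ν) (R : ℝ) {δ : ℝ} (hδ : 0 < δ) : ∃ r₂ > 0, ∀ r₁ > 0, ∀ᶠ i in atTop,
      ∀ t ∈ Icc (-3 / 2 : ℝ) (-1), ∀ z : E3, ‖z‖ ≤ R → ∀ r ∈ Icc r₁ r₂,
        bbar (resc w (s i)) z r t ≤ δ := by
  obtain ⟨r₂, hr₂, h1⟩ := ev_beta hT ha hw h hF R hδ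
  refine ⟨min r₂ (1 / 2), by positivity, fun r₁ hr₁ => ?_⟩
  filter_upwards [h1 r₁ hr₁] with i hi t ht z hz r hr
  have h2 := hr.2.trans (min_le_right _ _)
  have h3 : 0 < r := hr₁.trans_le hr.1
  refine bbar_le hδ.le fun t' ht' => hi t' ⟨?_, ht'.2.trans ht.2⟩ z hz r
    ⟨hr.1, hr.2.trans (min_le_left _ _)⟩
  nlinarith [ht'.1, ht.1]

/-- near the track of a point of higher multiplicity the mass ratio is large -/
theorem ev_mass (hC : Calc) (hD : CylDensStmt) (hT : Tan) (ha : a < 0)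
    (hw : IsGood w (Ioo a 0) A C) (h : TanSeq w s ν) {z : E3} (hz : z ∈ Zset ν) :
    ∃ r₂ > 0, ∀ r, 0 < r → r < r₂ → ∀ᶠ i in atTop, ∀ t ∈ Icc (-2 : ℝ) (-1),
      ENNReal.ofReal (r ^ 2 / 4) ≤ ar (resc w (s i) t) (closedBall (√(-t) • z) r) ∧
        ¬Reg (resc w (s i) t) (1 / 10) (√(-t) • z) r := by
  obtain ⟨r₂, hr₂, hz⟩ := (nhdsGT_basis (0 : ℝ)).eventually_iff.1 hz
  refine ⟨r₂, hr₂, fun r hr hrr => ev_unif isCompact_Icc ?_⟩
  intro φ hφ t ht t' ht' htt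
  have h' := tanSeq_sub h hφ
  have h0 : t' < 0 := by linarith [ht'.2]
  have hc := one_le_sqrt ht'.2
  have hc0 : 0 < √(-t') := by linarith
  have hν := hT.ratio w a A ha hw.toIsARFlow _ _ h
  have h1 : 3 / 2 ≤ mk (scal ν √(-t')) (√(-t') • z) (r / 2) := by
    have h2 := mk_scal (ν := ν) hc0 z (r / 2 / √(-t'))
    rw [mul_div_cancel₀ _ hc0.ne'] at h2
    rw [h2]
    exact hz ⟨by positivity, (div_le_self (by positivity) hc).trans_lt (by linarith)⟩
  have h2 : Tendsto (fun i => ‖√(-t') • z - √(-t i) • z‖) atTop (𝓝 ‖√(-t') • z - √(-t') • z‖) :=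
    (tendsto_const_nhds.sub (htt.neg.sqrt.smul_const z)).norm
  rw [sub_self, norm_zero] at h2
  filter_upwards [hT.gd_lim _ _ A (ev_AR hT ha hw h' h0 htt) (AR_scal hc0 hν)
    (hT.slow w a A ha hw.toIsARFlow _ _ h' t t' h0 htt) ‖√(-t') • z‖ (r / 2) (r / 2) (1 / 10)
    (by positivity) (by norm_num), h2.eventually (gt_mem_nhds (half_pos hr)),
    ev_left ha h' (-2)] with i hi h3 h4
  have h5 := (abs_le.1 (hi _ le_rfl (r / 2) ⟨le_rfl, le_rfl⟩).2).1
  simp only [Function.comp_apply] at h5 h4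
  have hg := hT.resc_good w a A C hw _ (h.pos (φ i))
  have hti : t i ∈ Ioo (a / s (φ i) ^ 2) 0 := ⟨h4.trans_le (ht i).1, by linarith [(ht i).2]⟩
  have hS := hC.slice _ _ hg.toIsFlow _ hti
  have := hC.locFin _ hS
  constructor
  · have h6 := mk_le_mass (μ := ar (resc w (s (φ i)) (t i))) (√(-t') • z) (half_pos hr)
    have h7 : r ^ 2 / 4 ≤ (ar (resc w (s (φ i)) (t i))).real (closedBall (√(-t') • z) (r / 2)) := by
      rw [le_div_iff₀ (by positivity)] at h6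
      nlinarith [sq_nonneg r]
    refine (ENNReal.ofReal_le_of_le_toReal h7).trans (measure_mono ?_)
    exact closedBall_subset_closedBall' (by rw [dist_eq_norm]; linarith)
  · rintro ⟨n, hn, h6⟩
    have h7 : ball (√(-t') • z) (r / 2) ⊆ ball (√(-t i) • z) r :=
      ball_subset_ball' (by rw [dist_eq_norm]; linarith)
    have h8 := mk_le_of_reg hD hS.smooth.continuous le_rfl (half_pos hr)
      ⟨n, hn, fun y hy y' hy' => h6 y (h7 hy) y' (h7 hy')⟩
    linarith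

end Vale.Agent.P218UD
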