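import Vale.Agent.P218UD.Lat
import Vale.Agent.P218UD.Lint
import Vale.Agent.P218UD.WtR
import Vale.Agent.P218UM.PW
import Vale.Agent.P218UV.Heat

/-! The differential inequality for the separation functional with the weight which cuts out the
loud lattice balls, below a fixed level. -/

open MeasureTheory Set Filter Topology Metric
open scoped ENNReal NNReal RealInnerProductSpace ContDiff

namespace Vale.Agent.P218UD

open Vale.Agent.P218UA Vale.Agent.P218UM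
open Vale.Agent.P218.H63 (lap hessSq)

/-- the last two conclusions of `CoreStmt`, for one flow -/
def CoreAt (A θ σ δ c C : ℝ) (w : ℝ → E3 → ℝ) (I : Set ℝ) : Prop :=
  (∀ K : Set (ℝ × E3), IsCompact K → K ⊆ I ×ˢ univ → ∃ y₀ : ℝ, ∀ p ∈ K, w p.1 p.2 = 0 →
    ∀ y ∈ Om w I A σ θ p.1 p.2, y₀ < y) ∧
  ∀ (J : Set ℝ) (γ : ℝ → E3 → ℝ → ℝ) (ψ : ℝ → E3 → ℝ) (q : ℝ × E3 → ℝ) (y₀ y₁ : ℝ),
    IsOpen J → J ⊆ I →
    ContDiffOn ℝ 2 (fun p : ℝ × E3 × ℝ => γ p.1 p.2.1 p.2.2) (J ×ˢ univ) →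
    (∀ t ∈ J, ∀ x y, 0 ≤ γ t x y) → (∀ t ∈ J, ∀ x y, y₁ ≤ y → γ t x y = 0) →
    ContDiff ℝ 2 (fun p : ℝ × E3 => ψ p.1 p.2) →
    HasCompactSupport (fun p : ℝ × E3 => ψ p.1 p.2) →
    tsupport (fun p : ℝ × E3 => ψ p.1 p.2) ⊆ J ×ˢ univ → (∀ t x, 0 ≤ ψ t x) →
    Measurable q → (∃ B, ∀ p, 0 ≤ q p ∧ q p ≤ B) →
    (∀ p ∈ tsupport (fun p : ℝ × E3 => ψ p.1 p.2), w p.1 p.2 = 0 →
      (∀ y ∈ Om w I A σ θ p.1 p.2, y₀ < y) ∧ ∀ y, y₀ ≤ y →
        ((p.1, p.2, y) ∈ closure {p' : ℝ × E3 × ℝ | p'.1 ∈ J ∧ γ p'.1 p'.2.1 p'.2.2 ≠ 0} →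
          Quiet w I δ p.1 p.2 y) ∧
        ‖gradient (fun x => γ p.1 x y) p.2‖ ^ 2 ≤ γ p.1 p.2 y * q p ∧
        deriv (γ p.1 p.2) y - c * γ p.1 p.2 y ≤ Real.exp (2 * y) * q p) →
    Integrable (fun p : ℝ × E3 => GG w I A σ θ γ p.1 p.2 * adj w ψ p.1 p.2) (stm w I) ∧
    Integrable (fun p : ℝ × E3 => ψ p.1 p.2 *
      ∫ y in Om w I A σ θ p.1 p.2, heat w (fun t x => γ t x y) p.1 p.2) (stm w I) ∧
    0 ≤ ∫ p, (GG w I A σ θ γ p.1 p.2 * adj w ψ p.1 p.2 + ψ p.1 p.2 *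
      ((∫ y in Om w I A σ θ p.1 p.2, heat w (fun t x => γ t x y) p.1 p.2) + C * q p))
        ∂(stm w I)

/-- the weight in the level -/
noncomputable def gl (c a y : ℝ) : ℝ := Real.exp (c / 2 * (y - a)) * s0 (y - a)

section gl

variable {c a y : ℝ}

lemma contDiff_gl : ContDiff ℝ 2 (gl c a) :=
  (by fun_prop : ContDiff ℝ 2 fun y : ℝ => Real.exp (c / 2 * (y - a))).mul
    (contDiff_s0.comp (contDiff_id.sub contDiff_const))

lemma gl_nonneg : 0 ≤ gl c a y := mul_nonneg (Real.exp_pos _).le (s0_nonneg _)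

lemma gl_zero (h : a ≤ y) : gl c a y = 0 := by rw [gl, s0_eq_zero (by linarith), mul_zero]

lemma gl_le_exp : gl c a y ≤ Real.exp (c / 2 * (y - a)) :=
  mul_le_of_le_one_right (Real.exp_pos _).le (s0_le_one _)

lemma gl_le_one (hc : 0 ≤ c) : gl c a y ≤ 1 := by
  rcases le_total a y with h | h
  · rw [gl_zero h]
    exact zero_le_one
  · exact gl_le_exp.trans (Real.exp_le_one_iff.2 (by nlinarith))

lemma gl_ge (hc : 0 ≤ c) (hc1 : c ≤ 1) (h : y ∈ Icc (a - 2) (a - 1)) : Real.exp (-1) ≤ gl c a y := by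
  rw [gl, s0_eq_one (by linarith [h.2]), mul_one]
  exact Real.exp_le_exp.2 (by nlinarith [h.1, h.2])

lemma deriv_gl_le : deriv (gl c a) y ≤ c / 2 * gl c a y := by
  have h1 : HasDerivAt (fun y => s0 (y - a)) (deriv s0 (y - a)) y :=
    (contDiff_s0.differentiable (by norm_num) _).hasDerivAt.comp_sub_const y _
  have h2 : HasDerivAt (gl c a) _ y :=
    ((((hasDerivAt_id' y).sub_const a).const_mul (c / 2)).exp).fun_mul h1
  rw [h2.deriv, gl]
  nlinarith [mul_nonpos_of_nonneg_of_nonpos (Real.exp_pos (c / 2 * (y - a))).le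
    (deriv_s0_nonpos (y - a))]

lemma lintegral_gl (hc : 0 < c) : ∫⁻ y, ENNReal.ofReal (gl c a y) ≤ ENNReal.ofReal (2 / c) := by
  have h1 : ∀ y, Real.exp (c / 2 * (y - a)) = Real.exp (-(c / 2 * a)) * Real.exp (c / 2 * y) :=
    fun y => by rw [← Real.exp_add]; congr 1; ring
  have h2 : IntegrableOn (fun y => Real.exp (c / 2 * (y - a))) (Iic a) := by
    simp only [h1]
    exact (integrableOn_exp_mul_Iic (half_pos hc) a).const_mul _
  have h3 : ∫ y in Iic a, Real.exp (c / 2 * (y - a)) = 2 / c := by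
    simp only [h1]
    rw [integral_const_mul, integral_exp_mul_Iic (half_pos hc), ← mul_div_assoc, ← Real.exp_add]
    simp
  rw [← h3, ofReal_integral_eq_lintegral_ofReal h2
    (Eventually.of_forall fun _ => (Real.exp_pos _).le), ← lintegral_indicator measurableSet_Iic]
  refine lintegral_mono fun y => ?_
  by_cases hy : y ∈ Iic a
  · rw [indicator_of_mem hy]
    exact ENNReal.ofReal_le_ofReal gl_le_exp
  · simp [gl_zero (not_le.1 hy).le]

end gl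

lemma measurableSet_Om (w : ℝ → E3 → ℝ) (I : Set ℝ) (A σ θ t : ℝ) (x : E3) :
    MeasurableSet (Om w I A σ θ t x) :=
  (IsUpperSet.ordConnected fun _ _ h h' => Om_up h' h).measurableSet

/-- the region in space-time in which the lattice ball `Q` has an influence on the weight -/
def cellQ (w : ℝ → E3 → ℝ) (δ Λ : ℝ) (J : Set ℝ) (Q : Lat) : Set (ℝ × E3) :=
  loud w (δ / 2) J Q ×ˢ ball (zQ Q) (Λ * rQ Q)

/-- the error caused by the lattice ball `Q` -/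
noncomputable def eQ (e : E3 → ℝ) (Q : Lat) (x : E3) : ℝ := e ((rQ Q)⁻¹ • (x - zQ Q)) / rQ Q ^ 2

theorem wcore (hC : Calc) (hcell : Cell) {w : ℝ → E3 → ℝ} {I J : Set ℝ}
    {A θ σ δ c Cc Λ Cw a ρ : ℝ} {e : E3 → ℝ} {z : E3} {ψ : ℝ → E3 → ℝ} (hw : IsARFlow w I A)
    (hcore : CoreAt A θ σ δ c Cc w I) (hδ : 0 < δ) (hc : 0 < c) (hc1 : c ≤ 1)
    (he : Measurable e) (he0 : ∀ x, 0 ≤ e x ∧ e x ≤ Cw) (hwt : WtAt (c / 2) Λ Cw e)
    (hJ : IsOpen J) (hJI : ∀ t ∈ J, Icc (t - ρ ^ 2) t ⊆ I) (ha : Real.exp (a + 4) ≤ ρ)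
    (hψ : ContDiff ℝ 2 fun p : ℝ × E3 => ψ p.1 p.2)
    (hψc : HasCompactSupport fun p : ℝ × E3 => ψ p.1 p.2)
    (hψs : tsupport (fun p : ℝ × E3 => ψ p.1 p.2) ⊆ J ×ˢ ball z ρ) (hψ0 : ∀ t x, 0 ≤ ψ t x) :
    ∃ (F : Finset Lat) (f G : ℝ × E3 → ℝ),
      (∀ Q ∈ F, zQ Q ∈ ball z (2 * ρ) ∧ rQ Q ≤ Real.exp (a + 4)) ∧ Integrable f (stm w I) ∧
      0 ≤ ∫ p, f p ∂(stm w I) ∧ (∀ p, p ∉ tsupport (fun p : ℝ × E3 => ψ p.1 p.2) → f p = 0) ∧
      ∀ p ∈ tsupport (fun p : ℝ × E3 => ψ p.1 p.2), w p.1 p.2 = 0 →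
        0 ≤ G p ∧ G p ≤ 2 / c ∧ ((∀ y ≤ a, y ∉ Om w I A σ θ p.1 p.2) → G p = 0) ∧
        (¬Reg (w p.1) θ p.2 (Real.exp (a - 2)) → (∀ Q ∈ F, p ∉ cellQ w δ Λ J Q) →
          Real.exp (-1) ≤ G p) ∧
        f p ≤ G p * adj w ψ p.1 p.2 + ψ p.1 p.2 * ∑ Q ∈ F, (cellQ w δ Λ J Q).indicator
          (fun p => (1 + Cc) * eQ e Q p.2
            + Cw * (CXi / δ) * |deriv (bbar w (zQ Q) (rQ Q)) p.1|) p := by
  classical
  have hJI' : J ⊆ I := fun t ht => hJI t ht ⟨by nlinarith [sq_nonneg ρ], le_rfl⟩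
  set K := tsupport fun p : ℝ × E3 => ψ p.1 p.2 with hK
  have hKJ : K ⊆ J ×ˢ univ := fun p hp => ⟨(hψs hp).1, trivial⟩
  have hKI : K ⊆ I ×ˢ univ := fun p hp => ⟨hJI' (hψs hp).1, trivial⟩
  have hψz : ∀ p, p ∉ K → ψ p.1 p.2 = 0 := fun p hp =>
    image_eq_zero_of_notMem_tsupport (f := fun p : ℝ × E3 => ψ p.1 p.2) hp
  obtain ⟨y₀, hy₀⟩ := hcore.1 K hψc hKI
  set F := (finite_lat y₀ (a + 4) z (2 * ρ)).toFinset with hF
  have hmF : ∀ Q, Q ∈ F ↔ y₀ ≤ Q.1 ∧ (Q.1 : ℝ) ≤ a + 4 ∧ zQ Q ∈ ball z (2 * ρ) := fun Q => by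
    rw [hF, Finite.mem_toFinset]
    rfl
  have hr : ∀ Q ∈ F, rQ Q ≤ Real.exp (a + 4) := fun Q hQ => Real.exp_le_exp.2 ((hmF Q).1 hQ).2.1
  have hwin : ∀ Q ∈ F, ∀ t ∈ J, Icc (t - rQ Q ^ 2) t ⊆ I := fun Q hQ t ht =>
    (Icc_subset_Icc_left (by
      have := pow_le_pow_left₀ (rQ_pos Q).le ((hr Q hQ).trans ha) 2
      linarith)).trans (hJI t ht)
  have hsm : ∀ Q ∈ F, ∀ t ∈ J, ContDiffAt ℝ ∞ (bbar w (zQ Q) (rQ Q)) t := fun Q hQ t ht =>
    hcell.smooth w I A hw _ _ t (rQ_pos Q) (hwin Q hQ t ht)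
  obtain ⟨γ₀, hγ, hγ'⟩ := hwt F (bQ w δ) J hJ
    (fun Q hQ t ht => (contDiffAt_bQ (hsm Q hQ t ht)).contDiffWithinAt) fun _ _ _ _ => bQ_mem
  have hγa : ∀ t ∈ J, ∀ x y, ContDiffAt ℝ 2 (fun p : ℝ × E3 × ℝ => γ₀ p.1 p.2.1 p.2.2) (t, x, y) :=
    fun t ht x y => hγ.contDiffAt ((hJ.prod isOpen_univ).mem_nhds ⟨ht, trivial⟩)
  set γ : ℝ → E3 → ℝ → ℝ := fun t x y => gl c a y * γ₀ t x y with hγd
  have hγ0 : ∀ t ∈ J, ∀ x y, 0 ≤ γ t x y := fun t ht x y =>
    mul_nonneg gl_nonneg ((hγ' t ht x).1 y).1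
  have hγ1 : ∀ t x y, a ≤ y → γ t x y = 0 := fun t x y hy => by
    simp only [hγd, gl_zero hy, zero_mul]
  set q : ℝ × E3 → ℝ := fun p => ∑ Q ∈ F, (cellQ w δ Λ J Q).indicator (fun p => eQ e Q p.2) p
    with hq
  have heQ : ∀ Q x, 0 ≤ eQ e Q x := fun Q x => div_nonneg (he0 _).1 (sq_nonneg _)
  have hq0 : ∀ p, 0 ≤ q p := fun p =>
    Finset.sum_nonneg fun Q _ => indicator_nonneg (fun p _ => heQ Q p.2) p
  have hqB : ∀ p, q p ≤ ∑ Q ∈ F, Cw / rQ Q ^ 2 := fun p => Finset.sum_le_sum fun Q _ =>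
    (indicator_le_self' (fun p _ => heQ Q p.2) p).trans
      (div_le_div_of_nonneg_right (he0 _).2 (sq_nonneg _))
  have hqm : Measurable q := Finset.measurable_sum F fun Q hQ =>
    Measurable.indicator ((he.comp (by fun_prop)).div_const _)
      ((measurableSet_loud hJ (hsm Q hQ)).prod measurableSet_ball)
  have hsum : ∀ (p : ℝ × E3) (g : Lat → ℝ × E3 → ℝ),
      ∑ Q ∈ F with p ∈ cellQ w δ Λ J Q, g Q p = ∑ Q ∈ F, (cellQ w δ Λ J Q).indicator (g Q) p :=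
    fun p g => by simp only [Finset.sum_filter, indicator_apply]
  have hG := fun (p : ℝ × E3) (hp : p ∈ K) => (hγ' p.1 (hψs hp).1 p.2).2.2.2 a
    (F.filter fun Q => p ∈ cellQ w δ Λ J Q) (Finset.filter_subset _ _) fun Q hQ _ h1 h2 =>
      Finset.mem_filter.2 ⟨hQ, ⟨(hψs hp).1, le_of_bQ_ne hδ h1⟩, mem_ball_iff_norm.2 h2⟩
  have hqe : ∀ p : ℝ × E3, ∑ Q ∈ F with p ∈ cellQ w δ Λ J Q,
      e ((rQ Q)⁻¹ • (p.2 - zQ Q)) / rQ Q ^ 2 = q p := fun p => hsum p fun Q p => eQ e Q p.2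
  obtain ⟨i1, i2, i3⟩ := hcore.2 J γ ψ q y₀ a hJ hJI'
    ((contDiff_gl.comp (contDiff_snd.comp contDiff_snd)).contDiffOn.mul hγ) hγ0
    (fun t _ => hγ1 t) hψ hψc hKJ hψ0 hqm ⟨_, fun p => ⟨hq0 p, hqB p⟩⟩ fun p hp h0 =>
    ⟨hy₀ p hp h0, fun y hy => ⟨fun hcl => by
      have h1 : y ≤ a := by
        have h2 : IsClosed {p' : ℝ × E3 × ℝ | p'.2.2 ≤ a} :=
          isClosed_le (continuous_snd.comp continuous_snd) continuous_const
        exact closure_minimal (t := {p' : ℝ × E3 × ℝ | p'.2.2 ≤ a}) (fun p' hp' => by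
          by_contra h3
          exact hp'.2 (hγ1 _ _ _ (not_le.1 h3).le)) h2 hcl
      refine quiet_of_closure hδ (F := F) (γ₀ := γ₀) (fun t ht x => (hγ' t ht x).2.1)
        (fun t _ x y h => by simp only [hγd, h, mul_zero]) (fun Q h2 h3 h4 => ?_) hcl
      have h5 : Q ∈ F := by
        refine (hmF Q).2 ⟨by linarith, by linarith, ?_⟩
        have h6 : rQ Q ≤ ρ := (Real.exp_le_exp.2 (by linarith)).trans ha
        have h7 : dist p.2 z < ρ := (hψs hp).2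
        have h8 := dist_triangle (zQ Q) p.2 z
        rw [dist_comm (zQ Q) p.2, dist_eq_norm p.2 (zQ Q)] at h8
        rw [mem_ball]
        linarith
      exact ⟨h5, hwin Q h5 _ (hψs hp).1, (hsm Q h5 _ (hψs hp).1).continuousAt⟩, by
      have h1 := (slice_x (f := fun s z => γ₀ s z y)
        (cd_tx (hγa _ (hψs hp).1 p.2 y))).differentiableAt (by norm_num)
      simp only [hγd]
      rw [gradient_const_mul _ h1, norm_smul, mul_pow, Real.norm_eq_abs, sq_abs]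
      rcases le_total y a with h2 | h2
      · have h3 := ((hG p hp).1 y h2).1
        rw [hqe] at h3
        have h4 : 0 ≤ γ₀ p.1 p.2 y * q p := (sq_nonneg _).trans h3
        have h5 : gl c a y ^ 2 ≤ gl c a y := by
          nlinarith [gl_nonneg (c := c) (a := a) (y := y), gl_le_one (a := a) (y := y) hc.le]
        rw [mul_assoc]
        exact mul_le_mul h5 h3 (sq_nonneg _) gl_nonneg
      · simp [gl_zero h2], by
      have h1 := ((cd_y (hγa _ (hψs hp).1 p.2 y)).differentiableAt (by norm_num)).hasDerivAt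
      have h2 : HasDerivAt (γ p.1 p.2) _ y :=
        (contDiff_gl.differentiable (by norm_num) y).hasDerivAt.fun_mul h1
      rw [h2.deriv]
      simp only [hγd]
      have h3 := mul_le_mul_of_nonneg_right (deriv_gl_le (c := c) (a := a) (y := y))
        ((hγ' _ (hψs hp).1 p.2).1 y).1
      have h4 : 0 ≤ Real.exp (2 * y) * q p := mul_nonneg (Real.exp_pos _).le (hq0 p)
      rcases le_total y a with h5 | h5
      · have h6 := ((hG p hp).1 y h5).2
        rw [hqe] at h6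
        have h7 := mul_le_mul_of_nonneg_left h6 (gl_nonneg (c := c) (a := a) (y := y))
        have h8 := mul_le_of_le_one_left h4 (gl_le_one (a := a) (y := y) hc.le)
        linarith
      · rw [gl_zero h5] at h3 ⊢
        linarith⟩⟩
  have i4 : Integrable (fun p : ℝ × E3 => ψ p.1 p.2 * q p) (stm w I) := by
    obtain ⟨M, hM⟩ := hψ.continuous.bounded_above_of_compact_support hψc
    refine IntegrableOn.integrable_of_forall_notMem_eq_zero (s := K) ?_ fun p hp => by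
      rw [hψz p hp, zero_mul]
    refine Measure.integrableOn_of_bounded (M := M * ∑ Q ∈ F, Cw / rQ Q ^ 2)
      (hC.stm_fin w I hw.toIsFlow K hψc hKI).ne
      (hψ.continuous.measurable.mul hqm).aestronglyMeasurable (Eventually.of_forall fun p => ?_)
    rw [norm_mul, Real.norm_of_nonneg (hq0 p)]
    exact mul_le_mul (hM p) (hqB p) (hq0 p) ((norm_nonneg _).trans (hM p))
  refine ⟨F, _, fun p => GG w I A σ θ γ p.1 p.2, fun Q hQ => ⟨((hmF Q).1 hQ).2.2, hr Q hQ⟩,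
    (i1.add (i2.add (i4.const_mul Cc))).congr (Eventually.of_forall fun p => ?_), i3,
    fun p hp => ?_, fun p hp h0 => ⟨?_, ?_, fun h => ?_, fun h1 h2 => ?_, ?_⟩⟩
  · simp only [Pi.add_apply]
    ring
  · have h1 := P218UV.adj_eq_zero (w := w) hp
    simp only at h1
    simp only [show adj w ψ p.1 p.2 = 0 from h1,
      hψz p hp, mul_zero, zero_mul, add_zero]
  · exact integral_nonneg fun y => hγ0 _ (hψs hp).1 _ y
  · refine int_le_of_lint (by positivity) (le_trans ?_ (lintegral_gl (a := a) hc))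
    refine (setLIntegral_le_lintegral _ _).trans (lintegral_mono fun y => ?_)
    exact ENNReal.ofReal_le_ofReal
      (mul_le_of_le_one_right gl_nonneg ((hγ' _ (hψs hp).1 p.2).1 y).2)
  · refine setIntegral_eq_zero_of_forall_eq_zero fun y hy => hγ1 _ _ _ ?_
    by_contra h3
    exact h y (not_le.1 h3).le hy
  · have h3 : IntegrableOn (γ p.1 p.2) (Om w I A σ θ p.1 p.2) :=
      integrableOn_of_zero_above (y₁ := a) (contDiff_gl.continuous.mul
        (continuous_iff_continuousAt.2 fun y => (cd_y (hγa _ (hψs hp).1 p.2 y)).continuousAt))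
        (measurableSet_Om _ _ _ _ _ _ _) (hy₀ p hp h0) fun y hy => hγ1 _ _ _ hy.le
    have h4 : Icc (a - 2) (a - 1) ⊆ Om w I A σ θ p.1 p.2 := fun y hy =>
      Om_up (y := a - 2) (Or.inl h1) hy.1
    have h5 := setIntegral_ge_of_const_le_real (μ := volume) (c := Real.exp (-1))
      (f := γ p.1 p.2) measurableSet_Icc (by simp) (fun y (hy : y ∈ Icc (a - 2) (a - 1)) => by
        have h6 : γ₀ p.1 p.2 y = 1 := (hγ' _ (hψs hp).1 p.2).2.2.1 y fun Q hQ _ => by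
          by_contra h7
          rw [not_or, not_le] at h7
          exact h2 Q hQ ⟨⟨(hψs hp).1, le_of_bQ_ne hδ h7.1⟩, mem_ball_iff_norm.2 h7.2⟩
        simp only [hγd, h6, mul_one]
        exact gl_ge hc.le hc1 hy) (h3.mono_set h4)
    rw [Real.volume_real_Icc_of_le (by linarith), show a - 1 - (a - 2) = 1 by ring, mul_one] at h5
    exact h5.trans (setIntegral_mono_set h3
      (Eventually.of_forall fun y => hγ0 _ (hψs hp).1 _ y) (LE.le.eventuallyLE h4))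
  · refine add_le_add le_rfl (mul_le_mul_of_nonneg_left ?_ (hψ0 _ _))
    have hn : ‖gradient (w p.1) p.2‖ = 1 := (hw.eik p.1 (hKI hp).1 p.2 h0).self_of_nhds
    have hCw : 0 ≤ Cw := (he0 0).1.trans (he0 0).2
    have h1 : ∫ y in Om w I A σ θ p.1 p.2, heat w (fun t x => γ t x y) p.1 p.2
        ≤ ∑ Q ∈ F with p ∈ cellQ w δ Λ J Q,
          (e ((rQ Q)⁻¹ • (p.2 - zQ Q)) / rQ Q ^ 2 + Cw * |deriv (bQ w δ Q) p.1|) := by
      refine int_le_of_lint (Finset.sum_nonneg fun Q _ =>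
        add_nonneg (heQ Q p.2) (by positivity)) (le_trans ?_ ((hG p hp).2.1 _ hn))
      rw [← lintegral_indicator measurableSet_Iic]
      refine (setLIntegral_le_lintegral _ _).trans (lintegral_mono fun y => ?_)
      have h2 := cd_tx (hγa _ (hψs hp).1 p.2 y)
      have h3 : heat w (fun t x => γ t x y) p.1 p.2 = gl c a y * (deriv (fun s => γ₀ s p.2 y) p.1
          - trT (gradient (w p.1) p.2) (hs (fun x => γ₀ p.1 x y) p.2)) := by
        simp only [heat, hγd]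
        rw [trT_const_mul _ (slice_x (f := fun s z => γ₀ s z y) h2), deriv_const_mul_field]
        ring
      simp only [h3]
      by_cases hy : y ∈ Iic a
      · rw [indicator_of_mem hy, ENNReal.ofReal_mul gl_nonneg]
        exact mul_le_of_le_one_left' (ENNReal.ofReal_le_one.2 (gl_le_one hc.le))
      · simp [gl_zero (not_le.1 hy).le]
    rw [← hqe, ← hsum, Finset.mul_sum]
    refine (add_le_add h1 le_rfl).trans ?_
    rw [← Finset.sum_add_distrib]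
    refine Finset.sum_le_sum fun Q hQ => ?_
    have h2 := mul_le_mul_of_nonneg_left
      (abs_deriv_bQ hδ (hsm Q (Finset.mem_filter.1 hQ).1 _ (hψs hp).1)) hCw
    simp only [eQ]
    linarith

end Vale.Agent.P218UD
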